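import Vale.Agent.P120.Param.Defs

/-!
# P120, parametrisation: nearby planes of one and two generations agree up to the flatness

Both planes are compared with the plane of the parent ball, through the symmetry of the angle of
two planes of the same dimension.
-/

open MeasureTheory Finset Metric
open scoped RealInnerProductSpace

namespace Vale.Agent.P120.Param

variable {n d : ℕ}

/-! ### Two planes -/

private lemma dir_add' (L : Plane n d) (v w : Sp d) : L.dir (v + w) = L.dir v + L.dir w := by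
  simp only [Plane.dir, inner_add_right, add_smul, sum_add_distrib]

private lemma dir_sub' (L : Plane n d) (v w : Sp d) : L.dir (v - w) = L.dir v - L.dir w := by
  simp only [Plane.dir, inner_sub_right, sub_smul, sum_sub_distrib]

private lemma dir_smul' (L : Plane n d) (c : ℝ) (v : Sp d) : L.dir (c • v) = c • L.dir v := by
  simp only [Plane.dir, inner_smul_right, mul_smul, smul_sum]

private lemma dir_sum' (L : Plane n d) (f : Fin n → Sp d) :
    L.dir (∑ i, f i) = ∑ i, L.dir (f i) := by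
  simp only [Plane.dir, inner_sum, sum_smul]
  exact sum_comm

private lemma inner_frame_dir' (L : Plane n d) (v : Sp d) (i : Fin n) :
    ⟪L.frame i, L.dir v⟫ = ⟪L.frame i, v⟫ :=
  L.ortho.inner_right_fintype _ i

private lemma dir_dir' (L : Plane n d) (v : Sp d) : L.dir (L.dir v) = L.dir v := by
  conv_lhs => rw [Plane.dir]
  simp only [inner_frame_dir']
  rfl

private lemma inner_dir_comm' (L : Plane n d) (v w : Sp d) : ⟪L.dir v, w⟫ = ⟪v, L.dir w⟫ := by
  simp only [Plane.dir, sum_inner, inner_sum, real_inner_smul_left, real_inner_smul_right]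
  exact sum_congr rfl fun i _ => by rw [real_inner_comm v (L.frame i)]; ring

private lemma norm_dir_sq' (L : Plane n d) (v : Sp d) :
    ‖L.dir v‖ ^ 2 = ∑ i, ⟪L.frame i, v⟫ ^ 2 := by
  rw [← real_inner_self_eq_norm_sq, inner_dir_comm', dir_dir']
  simp only [Plane.dir, inner_sum, real_inner_smul_right]
  exact sum_congr rfl fun i _ => by rw [real_inner_comm (L.frame i) v, sq]

private lemma norm_sq_split' (L : Plane n d) (v : Sp d) :
    ‖v‖ ^ 2 = ‖L.dir v‖ ^ 2 + ‖L.perp v‖ ^ 2 := by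
  have h : ⟪L.dir v, L.perp v⟫ = 0 := by
    rw [Plane.perp, inner_dir_comm', dir_sub', dir_dir', sub_self, inner_zero_right]
  have e := norm_add_sq_eq_norm_sq_add_norm_sq_of_inner_eq_zero _ _ h
  simp only [← pow_two, Plane.perp, add_sub_cancel] at e
  exact e

private lemma norm_dir_le' (L : Plane n d) (v : Sp d) : ‖L.dir v‖ ≤ ‖v‖ :=
  (pow_le_pow_iff_left₀ (norm_nonneg _) (norm_nonneg _) two_ne_zero).1
    (by rw [norm_sq_split' L v]; linarith [sq_nonneg ‖L.perp v‖])

private lemma norm_perp_le' (L : Plane n d) (v : Sp d) : ‖L.perp v‖ ≤ ‖v‖ :=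
  (pow_le_pow_iff_left₀ (norm_nonneg _) (norm_nonneg _) two_ne_zero).1
    (by rw [norm_sq_split' L v]; linarith [sq_nonneg ‖L.dir v‖])

/-- The frame of each of two planes of one dimension is equally far from the other plane. -/
private lemma sum_perp_symm (L L' : Plane n d) :
    ∑ i, ‖L'.perp (L.frame i)‖ ^ 2 = ∑ i, ‖L.perp (L'.frame i)‖ ^ 2 := by
  have e : ∀ A B : Plane n d, ∑ i, ‖B.perp (A.frame i)‖ ^ 2 =
      n - ∑ i, ∑ j, ⟪B.frame j, A.frame i⟫ ^ 2 := fun A B => by
    have : ∀ i, ‖B.perp (A.frame i)‖ ^ 2 = 1 - ∑ j, ⟪B.frame j, A.frame i⟫ ^ 2 :=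
      fun i => by
        have h := norm_sq_split' B (A.frame i)
        rw [A.ortho.1 i, one_pow, norm_dir_sq'] at h
        linarith
    simp [this, sum_sub_distrib]
  rw [e, e, sum_comm]
  simp only [real_inner_comm]

/-- If the frame of one plane is `δ`-close to another plane, the projections are close. -/
private lemma dir_close (L L' : Plane n d) {δ : ℝ} (hδ : 0 ≤ δ)
    (h : ∀ i, ‖L'.perp (L.frame i)‖ ≤ δ) (v : Sp d) :
    ‖L.dir v - L'.dir v‖ ≤ 2 * n * δ * ‖v‖ := by
  have a1 : ‖L'.perp (L.dir v)‖ ≤ n * δ * ‖v‖ := by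
    have e : L'.perp (L.dir v) = ∑ i, ⟪L.frame i, v⟫ • L'.perp (L.frame i) := by
      conv_lhs => rw [Plane.dir, Plane.perp]
      simp only [Plane.perp, dir_sum', dir_smul', smul_sub, sum_sub_distrib]
    rw [e]
    refine (norm_sum_le _ _).trans ((sum_le_sum fun i _ => (?_ :
      ‖⟪L.frame i, v⟫ • L'.perp (L.frame i)‖ ≤ δ * ‖v‖)).trans_eq
      (by simp [mul_assoc]))
    rw [norm_smul, mul_comm δ]
    refine mul_le_mul ?_ (h i) (norm_nonneg _) (norm_nonneg _)
    simpa [L.ortho.1 i] using abs_real_inner_le_norm (L.frame i) v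
  have hs : ∀ i, ‖L.perp (L'.frame i)‖ ≤ √n * δ := fun i => by
    refine (pow_le_pow_iff_left₀ (norm_nonneg _) (by positivity) two_ne_zero).1 ?_
    rw [mul_pow, Real.sq_sqrt (Nat.cast_nonneg n)]
    refine (single_le_sum (fun j _ => sq_nonneg ‖L.perp (L'.frame j)‖) (mem_univ i)).trans ?_
    rw [← sum_perp_symm]
    refine (sum_le_sum fun j _ => pow_le_pow_left₀ (norm_nonneg _) (h j) 2).trans_eq ?_
    simp
  have a2 : ‖L'.dir (L.perp v)‖ ≤ n * δ * ‖v‖ := by
    set w := L.perp v with hw'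
    have hw : L.dir w = 0 := by rw [hw', Plane.perp, dir_sub', dir_dir', sub_self]
    have hi : ∀ i, |⟪L'.frame i, w⟫| ≤ √n * δ * ‖w‖ := fun i => by
      have e : ⟪L'.frame i, w⟫ = ⟪L.perp (L'.frame i), w⟫ := by
        rw [Plane.perp, inner_sub_left, inner_dir_comm', hw, inner_zero_right, sub_zero]
      rw [e]
      exact (abs_real_inner_le_norm _ _).trans
        (mul_le_mul_of_nonneg_right (hs i) (norm_nonneg _))
    refine (pow_le_pow_iff_left₀ (norm_nonneg _) (by positivity) two_ne_zero).1 ?_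
    rw [norm_dir_sq']
    refine (sum_le_sum fun i _ => (sq_le_sq₀ (abs_nonneg _) (by positivity)).2 (hi i) |>.trans'
      (sq_abs _).ge).trans ?_
    rw [sum_const, card_univ, Fintype.card_fin, nsmul_eq_mul, mul_pow, mul_pow,
      Real.sq_sqrt (Nat.cast_nonneg n)]
    have hvw : ‖w‖ ^ 2 ≤ ‖v‖ ^ 2 := pow_le_pow_left₀ (norm_nonneg _) (norm_perp_le' L v) 2
    calc (n : ℝ) * (n * δ ^ 2 * ‖w‖ ^ 2) ≤ n * (n * δ ^ 2 * ‖v‖ ^ 2) := by gcongr
      _ = _ := by ring
  have e : L.dir v - L'.dir v = L'.perp (L.dir v) - L'.dir (L.perp v) := by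
    simp only [Plane.perp, dir_sub']; abel
  rw [e]
  linarith [norm_sub_le (L'.perp (L.dir v)) (L'.dir (L.perp v))]

/-- The component normal to a plane is bounded by the pairings with the unit normals. -/
private lemma norm_perp_le_of_normals (L : Plane n d) {v : Sp d} {D : ℝ} (hD : 0 ≤ D)
    (h : ∀ e ∈ L.normals, |⟪e, v⟫| ≤ D) : ‖L.perp v‖ ≤ D := by
  rcases eq_or_ne (L.perp v) 0 with h0 | h0
  · rw [h0, norm_zero]; exact hD
  have hn : 0 < ‖L.perp v‖ := norm_pos_iff.2 h0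
  have hv := h (‖L.perp v‖⁻¹ • L.perp v) ⟨norm_smul_inv_norm h0, fun i => by
    rw [real_inner_smul_right, Plane.perp, inner_sub_right, inner_frame_dir', sub_self, mul_zero]⟩
  have e : ⟪L.perp v, v⟫ = ‖L.perp v‖ ^ 2 := by
    have h1 : ⟪L.dir v, v⟫ = ‖L.dir v‖ ^ 2 := by
      rw [← real_inner_self_eq_norm_sq, inner_dir_comm' L v (L.dir v), dir_dir', real_inner_comm]
    rw [Plane.perp, inner_sub_left, h1, real_inner_self_eq_norm_sq, norm_sq_split' L v,
      Plane.perp]
    ring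
  rw [real_inner_smul_left, e] at hv
  refine le_trans (le_of_eq ?_) hv
  rw [abs_of_nonneg (by positivity)]
  field_simp

private lemma lipschitz_nrm (L : Plane n d) (y y' : Sp d) :
    ‖L.nrm y‖ ≤ ‖L.nrm y'‖ + ‖y - y'‖ := by
  have e : L.nrm y = L.nrm y' + L.perp (y - y') := by
    simp only [Plane.nrm, Plane.perp, Plane.dir]
    rw [show y - L.base = (y' - L.base) + (y - y') by abel]
    simp only [inner_add_right, add_smul, sum_add_distrib]
    abel
  rw [e]
  exact (norm_add_le _ _).trans (add_le_add le_rfl (norm_perp_le' L _))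

/-! ### Flatness along the ancestors of a cell -/

variable {μ : Measure (Sp d)} {x₀ : Sp d} {r₀ : ℝ} {K : ℕ}

/-- A cell of small geometric flatness is flat at every ancestor. -/
private lemma flat_anc {C : ℝ}
    (hC : ∀ p ∈ μ.support, ∀ R : ℝ, 0 < R → 0 ≤ flatness n μ p R ∧ flatness n μ p R ≤ C)
    (T : Tree μ x₀ r₀ K) (hx : x₀ ∈ μ.support) (hr : 0 < r₀) {k : ℕ} (hk : k ≤ K) {z : Sp d}
    (hz : z ∈ T.net k) (h : cellGeo n T k z ≤ 1 / 4) :
    0 ≤ cellGeo n T k z ∧ ∀ j : ℕ,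
      (√8)⁻¹ ^ j * flatness n μ (T.anc k z j) (cellRad r₀ k * 8 ^ j) ≤ cellGeo n T k z := by
  have hR : ∀ j : ℕ, 0 < cellRad r₀ k * 8 ^ j := fun j =>
    mul_pos (cellRad_pos hr k) (pow_pos (by norm_num) j)
  have hf := fun j => hC _ (T.anc_mem hx hk hz (j := j)) _ (hR j)
  have hq0 : 0 ≤ (√8)⁻¹ := by positivity
  have hq1 : (√8)⁻¹ < 1 :=
    inv_lt_one_of_one_lt₀ ((Real.lt_sqrt zero_le_one).2 (by norm_num))
  set a : ℕ → ℝ := fun j => (√8)⁻¹ ^ j * flatness n μ (T.anc k z j) (cellRad r₀ k * 8 ^ j)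
  have ha0 : ∀ j, 0 ≤ a j := fun j => mul_nonneg (pow_nonneg hq0 j) (hf j).1
  have hs : Summable a := Summable.of_nonneg_of_le ha0
    (fun j => mul_le_mul_of_nonneg_left (hf j).2 (pow_nonneg hq0 j))
    ((summable_geometric_of_lt_one hq0 hq1).mul_right C)
  have e : cellGeo n T k z = ∑' j, a j := by
    rcases le_total 1 (∑' j, a j) with h1 | h1
    · have : cellGeo n T k z = 1 := min_eq_left h1
      linarith
    · exact min_eq_right h1
  exact ⟨e ▸ tsum_nonneg ha0, fun j => e ▸ hs.le_tsum j fun i _ => ha0 i⟩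

private lemma le_ediam_of_flat_lt {p : Sp d} {R : ℝ} (h : flatness n μ p R < 1) :
    ENNReal.ofReal R ≤ Metric.ediam μ.support := by
  by_contra hc
  rw [flatness, if_neg hc] at h
  exact lt_irrefl _ h

private lemma rad_bounds (hr : 0 < r₀) {i j : ℕ} (h1 : i ≤ j) (h2 : j ≤ i + 1) :
    cellRad r₀ j ≤ 16 * rad r₀ i ∧ 2 * rad r₀ i ≤ cellRad r₀ j := by
  have : 0 < r₀ / 8 ^ i := by positivity
  obtain rfl | rfl : j = i ∨ j = i + 1 := by omega
  · simp only [cellRad, rad]; constructor <;> linarith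
  · simp only [cellRad, rad, pow_succ, ← div_div]; constructor <;> linarith

/-- Near a cell of small flatness the planes of its generation and of the next agree to first
order. -/
theorem exists_compare [Nonempty (Plane n d)] (hP : PlaneSpec n d) (μ : Measure (Sp d))
    [IsLocallyFiniteMeasure μ] (C₀ : ℝ) (hμ : Reg n C₀ μ) :
    ∃ C : ℝ, 1 ≤ C ∧ ∀ (x₀ : Sp d), x₀ ∈ μ.support → ∀ r₀ : ℝ, 0 < r₀ →
      ∀ (K : ℕ) (T : Tree μ x₀ r₀ K), ∀ i ≤ K, ∀ c₀ ∈ T.net i, cellGeo n T i c₀ ≤ 1 / 4 →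
      ∀ j j' : ℕ, i ≤ j → j ≤ i + 1 → j ≤ K → i ≤ j' → j' ≤ i + 1 → j' ≤ K →
      ∀ c ∈ T.net j, ∀ c' ∈ T.net j', dist c c₀ ≤ 20 * rad r₀ i → dist c' c₀ ≤ 20 * rad r₀ i →
        (∀ v : Sp d, ‖(plane (n := n) μ r₀ j c).perp ((plane (n := n) μ r₀ j' c').dir v)‖ ≤
          C * cellGeo n T i c₀ * ‖v‖) ∧
        ∀ q : Sp d, (plane (n := n) μ r₀ j' c').nrm q = 0 → dist q c₀ ≤ 20 * rad r₀ i →
          ‖(plane (n := n) μ r₀ j c).nrm q‖ ≤ C * cellGeo n T i c₀ * rad r₀ i := by
  obtain ⟨hbest, ⟨Cb, hCb⟩, hcmp⟩ := hP μ C₀ hμ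
  obtain ⟨C, hC0, hC⟩ := hcmp 64
  refine ⟨1 + 3 * C * (1100 * n + 256), le_add_of_nonneg_right (by positivity), ?_⟩
  intro x₀ hx r₀ hr K T i hi c₀ hc₀ hg j j' hij hji hjK hij' hji' hjK' c hc c' hc' hdc hdc'
  obtain ⟨hg0, hfl⟩ := flat_anc hCb T hx hr hi hc₀ hg
  set g := cellGeo n T i c₀ with hgdef
  set p := T.anc i c₀ 1 with hp
  set R := cellRad r₀ i * 8 ^ 1 with hRdef
  set s := rad r₀ i with hsdef
  have hs : 0 < s := by simp only [hsdef, rad]; positivity
  have hR : R = 128 * s := by simp only [hRdef, hsdef, cellRad, rad]; ring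
  set f := flatness n μ p R with hfdef
  have hf3 : f ≤ 3 * g := by
    have h := hfl 1
    rw [pow_one, inv_mul_le_iff₀ (by positivity)] at h
    have h8 : √8 ≤ 3 := Real.sqrt_le_iff.2 ⟨by norm_num, by norm_num⟩
    exact h.trans (mul_le_mul_of_nonneg_right h8 hg0)
  have hpR : ENNReal.ofReal R ≤ Metric.ediam μ.support :=
    le_ediam_of_flat_lt (n := n) (p := p) (by linarith)
  have hps : p ∈ μ.support := T.anc_mem hx hi hc₀
  have hf0 : 0 ≤ f := (hCb p hps R (by linarith)).1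
  have hc₀p : dist c₀ p ≤ 32 * s := by
    have := T.anc_near hr hi hc₀ (j := 0)
    rw [T.anc_zero, pow_zero, mul_one] at this
    simp only [cellRad, ← hp] at this
    simp only [hsdef, rad]; linarith
  set Q := bestPlane (n := n) μ p R with hQ
  -- a plane of the two generations against the plane of the parent
  have key : ∀ k, i ≤ k → k ≤ i + 1 → k ≤ K → ∀ z ∈ T.net k, dist z c₀ ≤ 20 * s →
      (∀ v, ‖(plane (n := n) μ r₀ k z).dir v - Q.dir v‖ ≤ 2 * n * (C * f) * ‖v‖) ∧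
      ‖Q.perp ((plane (n := n) μ r₀ k z).base - Q.base)‖ ≤ C * f * R ∧
      dist (plane (n := n) μ r₀ k z).base c₀ ≤ 36 * s := by
    intro k h1 h2 h3 z hz hzc
    obtain ⟨hk1, hk2⟩ := rad_bounds (r₀ := r₀) hr h1 h2
    rw [← hsdef] at hk1 hk2
    have hzs := T.mem k h3 z hz
    obtain ⟨-, hN⟩ := hC z hzs p hps (cellRad r₀ k) R (cellRad_pos hr k)
      (by linarith [dist_triangle z c₀ p]) (by linarith)
    have hN' := hN hpR
    refine ⟨fun v => dir_close _ Q (mul_nonneg hC0 hf0) (fun l =>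
      norm_perp_le_of_normals Q (mul_nonneg hC0 hf0) fun e he => (hN' e he).1 l) v,
      norm_perp_le_of_normals Q (mul_nonneg (mul_nonneg hC0 hf0) (by linarith)) fun e he =>
        (hN' e he).2, ?_⟩
    have hb := (hbest z (cellRad r₀ k) (cellRad_pos hr k)).1
    change dist (bestPlane (n := n) μ z (cellRad r₀ k)).base c₀ ≤ _
    linarith [dist_triangle (bestPlane (n := n) μ z (cellRad r₀ k)).base z c₀]
  obtain ⟨hd, hb, hbc⟩ := key j hij hji hjK c hc hdc
  obtain ⟨hd', hb', hbc'⟩ := key j' hij' hji' hjK' c' hc' hdc'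
  set A := plane (n := n) μ r₀ j c
  set A' := plane (n := n) μ r₀ j' c'
  set δ := 2 * n * (C * f) with hδ
  have hδ0 : 0 ≤ δ := by positivity
  have hperp : ∀ v, ‖A.perp (A'.dir v)‖ ≤ 2 * δ * ‖v‖ := fun v => by
    have e : A.perp (A'.dir v) =
        (A'.dir (A'.dir v) - Q.dir (A'.dir v)) - (A.dir (A'.dir v) - Q.dir (A'.dir v)) := by
      rw [dir_dir', Plane.perp]; abel
    rw [e]
    refine (norm_sub_le _ _).trans ((add_le_add (hd' _) (hd _)).trans ?_)
    rw [← two_mul, ← mul_assoc]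
    exact mul_le_mul_of_nonneg_left (norm_dir_le' A' v) (by positivity)
  have hCf : C * f ≤ 3 * C * g := by
    have := mul_le_mul_of_nonneg_left hf3 hC0; linarith
  refine ⟨fun v => (hperp v).trans (mul_le_mul_of_nonneg_right ?_ (norm_nonneg v)),
    fun q hq hqc => ?_⟩
  · have h1 : (n : ℝ) * (C * f) ≤ n * (3 * C * g) :=
      mul_le_mul_of_nonneg_left hCf (Nat.cast_nonneg n)
    have h2 : 0 ≤ C * g := mul_nonneg hC0 hg0
    have h3 : 0 ≤ (n : ℝ) * (C * g) := mul_nonneg (Nat.cast_nonneg n) h2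
    linarith
  · -- the height of a point of one plane over the other
    have hq' : q - A'.base = A'.dir (q - A'.base) := sub_eq_zero.1 hq
    have hlen : ∀ x y : Sp d, ∀ a b : ℝ, dist x c₀ ≤ a → dist y c₀ ≤ b → ‖x - y‖ ≤ a + b :=
      fun x y a b h1 h2 => by
        rw [← dist_eq_norm]; linarith [dist_triangle_right x y c₀]
    have hQb : dist Q.base c₀ ≤ 160 * s := by
      have := (hbest p R (by linarith)).1
      rw [← hQ] at this
      linarith [dist_triangle Q.base p c₀, dist_comm c₀ p]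
    have t1 : ‖A.perp (q - A'.base)‖ ≤ 2 * δ * (56 * s) := by
      rw [hq']
      exact (hperp _).trans (mul_le_mul_of_nonneg_left
        ((hlen q A'.base _ _ hqc hbc').trans (by linarith)) (by positivity))
    have hP' : ∀ x : Sp d, ‖A.perp x‖ ≤ ‖Q.perp x‖ + δ * ‖x‖ := fun x => by
      have e : A.perp x = Q.perp x - (A.dir x - Q.dir x) := by simp only [Plane.perp]; abel
      rw [e]
      exact (norm_sub_le _ _).trans (add_le_add le_rfl (hd x))
    have t2 : ∀ B : Plane n d, ‖Q.perp (B.base - Q.base)‖ ≤ C * f * R →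
        dist B.base c₀ ≤ 36 * s → ‖A.perp (B.base - Q.base)‖ ≤ C * f * R + δ * (196 * s) :=
      fun B h1 h2 => (hP' _).trans (add_le_add h1 (mul_le_mul_of_nonneg_left
        ((hlen B.base Q.base _ _ h2 hQb).trans (by linarith)) hδ0))
    have e : A.nrm q = A.perp (q - A'.base) + A.perp (A'.base - Q.base) -
        A.perp (A.base - Q.base) := by
      change A.perp (q - A.base) = _
      simp only [Plane.perp, dir_sub']; abel
    rw [e]
    refine (norm_sub_le _ _).trans ((add_le_add ((norm_add_le _ _).trans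
      (add_le_add t1 (t2 A' hb' hbc'))) (t2 A hb hbc)).trans ?_)
    rw [hR, hδ]
    have h1 : C * f * s ≤ 3 * C * g * s := mul_le_mul_of_nonneg_right hCf hs.le
    have h2 : (n : ℝ) * (C * f * s) ≤ n * (3 * C * g * s) :=
      mul_le_mul_of_nonneg_left h1 (Nat.cast_nonneg n)
    have h3 : 0 ≤ g * s := mul_nonneg hg0 hs.le
    have h4 : 0 ≤ (n : ℝ) * (C * (g * s)) := by positivity
    have h5 : 0 ≤ C * (g * s) := mul_nonneg hC0 h3
    linarith

/-- The support is uniformly close to the plane of a cell of small flatness. -/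
theorem exists_close [Nonempty (Plane n d)] (hP : PlaneSpec n d) (μ : Measure (Sp d))
    [IsLocallyFiniteMeasure μ] (C₀ : ℝ) (hμ : Reg n C₀ μ) (δ : ℝ) (hδ : 0 < δ) :
    ∃ ε : ℝ, 0 < ε ∧ ε ≤ 1 / 4 ∧ ∀ (x₀ : Sp d), x₀ ∈ μ.support → ∀ r₀ : ℝ, 0 < r₀ →
      ∀ (K : ℕ) (T : Tree μ x₀ r₀ K), ∀ i ≤ K, ∀ c₀ ∈ T.net i, cellGeo n T i c₀ ≤ ε →
      ∀ y ∈ μ.support, dist y c₀ ≤ 4 * rad r₀ i →
        ‖(plane (n := n) μ r₀ i c₀).nrm y‖ ≤ δ * rad r₀ i := by
  obtain ⟨hbest, ⟨Cb, hCb⟩, -⟩ := hP μ C₀ hμ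
  set δ₁ := min δ 1
  have hδ₁ : 0 < δ₁ := lt_min hδ one_pos
  have hC₀ : 0 < C₀ := zero_lt_one.trans_le hμ.one_le
  set m := C₀⁻¹ * (δ₁ / 32) ^ (n + 2) with hm
  have hm0 : 0 < m := by positivity
  refine ⟨min (1 / 4) (√m / 2), lt_min (by norm_num) (by positivity), min_le_left _ _, ?_⟩
  intro x₀ hx r₀ hr K T i hi c₀ hc₀ hg y hy hyc
  obtain ⟨hg0, hfl⟩ := flat_anc hCb T hx hr hi hc₀ (hg.trans (min_le_left _ _))
  set s := rad r₀ i with hsdef
  have hs : 0 < s := by simp only [hsdef, rad]; positivity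
  set R := cellRad r₀ i with hRdef
  have hR : R = 16 * s := rfl
  have hf : flatness n μ c₀ R ≤ min (1 / 4) (√m / 2) := by
    have := hfl 0
    simp only [pow_zero, one_mul, mul_one, T.anc_zero] at this
    exact this.trans hg
  have hRd : ENNReal.ofReal R ≤ Metric.ediam μ.support :=
    le_ediam_of_flat_lt (n := n) (p := c₀) (by linarith [min_le_left (1 / 4 : ℝ) (√m / 2)])
  set A := bestPlane (n := n) μ c₀ R with hA
  change ‖A.nrm y‖ ≤ _
  by_contra hlt
  push Not at hlt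
  set t := δ₁ * s / 2 with ht
  have hδ1 : δ₁ * s ≤ 1 * s := mul_le_mul_of_nonneg_right (min_le_right _ _) hs.le
  have hδs : δ₁ * s ≤ δ * s := mul_le_mul_of_nonneg_right (min_le_left _ _) hs.le
  have hts : 0 < t := by positivity
  have hsub : ball y t ⊆ ball c₀ R := ball_subset_ball' (by linarith)
  -- the mass of the small ball against the defect
  set F : Sp d → ℝ := fun z => (‖A.nrm z‖ / R) ^ 2 with hF
  have hFc : Continuous F := by
    simp only [hF, Plane.nrm]
    fun_prop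
  have hFi : IntegrableOn F (ball c₀ R) μ :=
    (hFc.locallyIntegrable.integrableOn_isCompact (isCompact_closedBall c₀ R)).mono_set
      ball_subset_closedBall
  have hlow : (t / R) ^ 2 * μ.real (ball y t) ≤ ∫ z in ball c₀ R, F z ∂μ := by
    refine le_trans ?_ (setIntegral_mono_set hFi (ae_of_all _ fun z => sq_nonneg _)
      hsub.eventuallyLE)
    rw [mul_comm, ← smul_eq_mul, ← setIntegral_const]
    refine setIntegral_mono_on (integrableOn_const (hμ.fin y t)) (hFi.mono_set hsub)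
      measurableSet_ball fun z hz => ?_
    refine pow_le_pow_left₀ (div_nonneg hts.le (cellRad_pos hr i).le) ?_ 2
    refine (div_le_div_iff_of_pos_right (cellRad_pos hr i)).2 ?_
    have h1 := lipschitz_nrm A y z
    rw [mem_ball, dist_eq_norm, norm_sub_rev] at hz
    linarith
  have hmass := hμ.lower y hy t hts ((ENNReal.ofReal_le_ofReal (by linarith)).trans hRd)
  have hdef : m ≤ defect n μ c₀ R A := by
    rw [defect, le_div_iff₀ (pow_pos (cellRad_pos hr i) n)]
    refine le_trans ?_ hlow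
    refine le_trans (le_of_eq ?_) (mul_le_mul_of_nonneg_left hmass (sq_nonneg _))
    have e : δ₁ / 32 = t / R := by rw [ht, hR]; field_simp; norm_num
    rw [hm, e, pow_add, div_pow t R n]
    have hRp : R ≠ 0 := (cellRad_pos hr i).ne'
    have : R ^ n ≠ 0 := pow_ne_zero n hRp
    rw [div_pow t R 2, ← hRdef]
    field_simp
  obtain ⟨hAR, hAmin⟩ := hbest c₀ R (cellRad_pos hr i)
  have : Nonempty {L : Plane n d // dist L.base c₀ ≤ R} := ⟨⟨A, hAR⟩⟩
  have hfl' : √m ≤ flatness n μ c₀ R := by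
    rw [flatness, if_pos hRd]
    exact Real.sqrt_le_sqrt (le_ciInf fun L => hdef.trans (hAmin L.1 L.2))
  have := Real.sqrt_pos.2 hm0
  linarith [min_le_right (1 / 4 : ℝ) (√m / 2)]

end Vale.Agent.P120.Param
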