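import Vale.Agent.P120.TreeFacts

/-!
# P120, parametrisation: planes of cells, projections, and their averages
-/

open Finset Metric
open scoped RealInnerProductSpace

namespace Vale.Agent.P120

variable {n d : ℕ}

/-- The orthogonal projection on the directions of a plane. -/
noncomputable def Plane.dir (L : Plane n d) (v : Sp d) : Sp d :=
  ∑ i, ⟪L.frame i, v⟫ • L.frame i

/-- The component of a vector normal to a plane. -/
noncomputable def Plane.perp (L : Plane n d) (v : Sp d) : Sp d := v - L.dir v

/-- The orthogonal projection on a plane. -/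
noncomputable def Plane.proj (L : Plane n d) (y : Sp d) : Sp d := y - L.nrm y

namespace Param

variable [Nonempty (Plane n d)] {μ : MeasureTheory.Measure (Sp d)} {x₀ : Sp d} {r₀ : ℝ} {K : ℕ}

/-- The scale of a generation. -/
noncomputable def rad (r₀ : ℝ) (k : ℕ) : ℝ := r₀ / 8 ^ k

/-- The best plane of a cell. -/
noncomputable def plane (μ : MeasureTheory.Measure (Sp d)) (r₀ : ℝ) (k : ℕ) (z : Sp d) :
    Plane n d :=
  bestPlane (n := n) μ z (cellRad r₀ k)

/-- The weight of a cell at a point: a tent of radius eight scales. -/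
noncomputable def tent (r₀ : ℝ) (k : ℕ) (z y : Sp d) : ℝ :=
  max 0 (1 - dist y z / (8 * rad r₀ k))

/-- The average of the projections on the planes of generation `k`. -/
noncomputable def avg (n : ℕ) [Nonempty (Plane n d)] (T : Tree μ x₀ r₀ K) (k : ℕ) (y : Sp d) :
    Sp d :=
  (∑ c ∈ T.net k, tent r₀ k c y)⁻¹ •
    ∑ c ∈ T.net k, tent r₀ k c y • (plane (n := n) μ r₀ k c).proj y

/-- The ancestor of a leaf in generation `i`. -/
noncomputable def line (T : Tree μ x₀ r₀ K) (w : Sp d) (i : ℕ) : Sp d := T.anc K w (K - i)

end Param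

end Vale.Agent.P120
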