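import Vale.Agent.P120.Param.Run

/-!
# P120, parametrisation: the leaves of bounded square sum embed co-Lipschitz in the plane

Induction on the number of generations of flatness above the threshold. At such a cell the children
get disjoint discs; below another cell each leaf is stopped at the first such generation, the stops
are embedded by the runs and each gets a small disc around its image.
-/

open MeasureTheory Finset Metric

namespace Vale.Agent.P120.Param

variable {n d : ℕ}

/-- Leaves below a cell with few generations above the threshold and small square sum there. -/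
structure IsGood (n : ℕ) {μ : Measure (Sp d)} {x₀ : Sp d} {r₀ : ℝ} {K : ℕ} (T : Tree μ x₀ r₀ K)
    (ε L : ℝ) (k : ℕ) (z : Sp d) (m : ℕ) (w : Sp d) : Prop where
  mem : w ∈ T.net K
  start : line T w k = z
  few : ((Icc k K).filter fun i => ε < cellGeo n T i (line T w i)).card ≤ m
  sum_le : ∑ i ∈ Icc k K, cellGeo n T i (line T w i) ^ 2 ≤ L

/-- Co-Lipschitz embeddings of the good leaves below every cell. -/
def CellMaps (n : ℕ) (μ : Measure (Sp d)) (ε L : ℝ) (m : ℕ) (c : ℝ) : Prop :=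
  ∀ (x₀ : Sp d), x₀ ∈ μ.support → ∀ r₀ : ℝ, 0 < r₀ → ∀ (K : ℕ) (T : Tree μ x₀ r₀ K),
    ∀ k ≤ K, ∀ z ∈ T.net k, ∃ u : Sp d → Sp n, (∀ w, ‖u w‖ ≤ rad r₀ k) ∧
      ∀ w w', IsGood n T ε L k z m w → IsGood n T ε L k z m w' →
        c * dist w w' ≤ ‖u w - u w'‖

/-- The same below the cells above the threshold. -/
def BigMaps (n : ℕ) (μ : Measure (Sp d)) (ε L : ℝ) (m : ℕ) (c : ℝ) : Prop :=
  ∀ (x₀ : Sp d), x₀ ∈ μ.support → ∀ r₀ : ℝ, 0 < r₀ → ∀ (K : ℕ) (T : Tree μ x₀ r₀ K),
    ∀ k ≤ K, ∀ z ∈ T.net k, ε < cellGeo n T k z → ∃ u : Sp d → Sp n,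
      (∀ w, ‖u w‖ ≤ rad r₀ k) ∧
      ∀ w w', IsGood n T ε L k z m w → IsGood n T ε L k z m w' →
        c * dist w w' ≤ ‖u w - u w'‖

variable {μ : Measure (Sp d)} {x₀ : Sp d} {r₀ : ℝ} {K : ℕ}

lemma line_agree (T : Tree μ x₀ r₀ K) {w w' : Sp d} {i j : ℕ} (hij : i ≤ j) (hj : j ≤ K)
    (h : line T w j = line T w' j) : line T w i = line T w' i := by
  induction j, hij using Nat.le_induction with
  | base => exact h
  | succ j hij ih =>
    refine ih (Nat.le_of_succ_le hj) ?_
    rw [← up_line T w hj, ← up_line T w' hj, h]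

lemma dist_leaf_lt (T : Tree μ x₀ r₀ K) (hr : 0 < r₀) {w : Sp d} (hw : w ∈ T.net K) {i : ℕ}
    (hi : i ≤ K) : dist w (line T w i) < 2 * rad r₀ i := by
  simpa [line_top] using dist_line_lt T hr hw hi le_rfl

lemma bigMaps_zero {ε L : ℝ} : BigMaps n μ ε L 0 1 := by
  intro x₀ _ r₀ hr K T k hk z _ hbig
  refine ⟨fun _ => 0, fun w => by simpa using (rad_pos hr k).le, fun w w' hw _ => absurd hw.few ?_⟩
  rw [Nat.le_zero, card_eq_zero, filter_eq_empty_iff]
  exact fun h => h (left_mem_Icc.2 hk) (by rwa [hw.start])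

/-- Below a cell above the threshold the children get disjoint discs. -/
lemma bigMaps_succ (hn : 1 ≤ n) {ε L c : ℝ} {m : ℕ} (hc : 0 < c) (h : CellMaps n μ ε L m c) :
    ∃ c' : ℝ, 0 < c' ∧ BigMaps n μ ε L (m + 1) c' := by
  set N : ℝ := (17 : ℝ) ^ d + 2 with hN
  have hN2 : 2 ≤ N := le_add_of_nonneg_left (by positivity)
  refine ⟨min (2 / N * c) (1 / (8 * N)), lt_min (by positivity) (by positivity), ?_⟩
  intro x₀ hx₀ r₀ hr K T k hk z hz hbig
  have hρ := rad_pos hr k
  rcases eq_or_lt_of_le hk with rfl | hkK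
  · refine ⟨fun _ => 0, fun w => by simpa using hρ.le, fun w w' hw hw' => ?_⟩
    rw [← line_top T w, ← line_top T w', hw.start, hw'.start]
    simp
  classical
  set C := (T.net (k + 1)).filter fun y => T.up k y = z with hC
  have hcard : (C.card : ℝ) ≤ (17 : ℝ) ^ d := by
    have h1 := card_le_of_apart C (p := z) (rad_pos hr (k + 1)) hρ.le
      (fun y hy => by
        obtain ⟨hy1, hy2⟩ := mem_filter.1 hy
        simpa [hy2, rad] using T.up_near k hkK y hy1)
      (fun y hy y' hy' hne => T.apart (k + 1) hkK y (mem_filter.1 hy).1 y' (mem_filter.1 hy').1 hne)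
    refine h1.trans_eq ?_
    rw [rad_succ]
    congr 1
    field_simp
    norm_num
  obtain ⟨idx, hidx, hinj⟩ : ∃ idx : Sp d → ℕ, (∀ y, (idx y : ℝ) ≤ (17 : ℝ) ^ d) ∧
      ∀ y ∈ C, ∀ y' ∈ C, idx y = idx y' → y = y' := by
    refine ⟨fun y => if hy : y ∈ C then (C.equivFin ⟨y, hy⟩ : ℕ) else 0, fun y => ?_,
      fun y hy y' hy' he => ?_⟩
    · simp only
      split_ifs with hy
      · exact (Nat.cast_le.2 (C.equivFin ⟨y, hy⟩).2.le).trans hcard
      · simp
    · simp only [dif_pos hy, dif_pos hy'] at he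
      exact congrArg Subtype.val (C.equivFin.injective (Fin.val_injective he))
  have hsub : ∀ y, ∃ v : Sp d → Sp n, (∀ w, ‖v w‖ ≤ rad r₀ (k + 1)) ∧
      (y ∈ T.net (k + 1) → ∀ w w', IsGood n T ε L (k + 1) y m w → IsGood n T ε L (k + 1) y m w' →
        c * dist w w' ≤ ‖v w - v w'‖) := by
    intro y
    by_cases hy : y ∈ T.net (k + 1)
    · obtain ⟨v, hv, hv'⟩ := h x₀ hx₀ r₀ hr K T (k + 1) hkK y hy
      exact ⟨v, hv, fun _ => hv'⟩
    · exact ⟨fun _ => 0, fun w => by simpa using (rad_pos hr _).le, fun h' => absurd h' hy⟩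
  choose v hv hvlip using hsub
  set e₀ : Sp n := EuclideanSpace.single (⟨0, hn⟩ : Fin n) (1 : ℝ) with he₀
  have he : ‖e₀‖ = 1 := by simp [he₀]
  set u : Sp d → Sp n := fun w =>
    (((idx (line T w (k + 1)) : ℝ) + 1) * (rad r₀ k / N)) • e₀ +
      (2 / N) • v (line T w (k + 1)) w with hu
  have hsmall : ∀ y w, ‖(2 / N) • v y w‖ ≤ rad r₀ k / N / 4 := by
    intro y w
    rw [norm_smul, Real.norm_of_nonneg (by positivity)]
    refine (mul_le_mul_of_nonneg_left (hv y w) (by positivity)).trans_eq ?_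
    rw [rad_succ]; ring
  refine ⟨u, fun w => ?_, fun w w' hw hw' => ?_⟩
  · refine (norm_add_le _ _).trans ?_
    rw [norm_smul, he, mul_one, Real.norm_of_nonneg (by positivity)]
    have h1 := hsmall (line T w (k + 1)) w
    have h2 : ((idx (line T w (k + 1)) : ℝ) + 1 + 1 / 4) * (rad r₀ k / N) ≤ N * (rad r₀ k / N) :=
      mul_le_mul_of_nonneg_right (by rw [hN]; linarith [hidx (line T w (k + 1))]) (by positivity)
    rw [mul_div_cancel₀ _ (by positivity : N ≠ 0)] at h2
    linarith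
  have hchild : ∀ w, IsGood n T ε L k z (m + 1) w → line T w (k + 1) ∈ C ∧
      IsGood n T ε L (k + 1) (line T w (k + 1)) m w := by
    intro w hw
    refine ⟨mem_filter.2 ⟨line_mem T hw.mem hkK, by rw [up_line T w hkK, hw.start]⟩,
      hw.mem, rfl, ?_, ?_⟩
    · have hins : Icc k K = insert k (Icc (k + 1) K) := by ext i; simp; omega
      have h1 := hw.few
      rw [hins, filter_insert, if_pos (by rw [hw.start]; exact hbig),
        card_insert_of_notMem (by simp)] at h1
      omega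
    · exact (sum_le_sum_of_subset_of_nonneg (Icc_subset_Icc_left (Nat.le_succ k))
        fun i _ _ => sq_nonneg _).trans hw.sum_le
  obtain ⟨hwC, hwG⟩ := hchild w hw
  obtain ⟨hwC', hwG'⟩ := hchild w' hw'
  by_cases heq : line T w (k + 1) = line T w' (k + 1)
  · rw [← heq] at hwG'
    have e : u w - u w' = (2 / N) • (v (line T w (k + 1)) w - v (line T w (k + 1)) w') := by
      simp only [hu, ← heq]
      module
    rw [e, norm_smul, Real.norm_of_nonneg (by positivity)]
    calc min (2 / N * c) (1 / (8 * N)) * dist w w' ≤ 2 / N * (c * dist w w') := by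
          rw [← mul_assoc]; exact mul_le_mul_of_nonneg_right (min_le_left _ _) dist_nonneg
      _ ≤ _ := mul_le_mul_of_nonneg_left
          (hvlip _ (mem_filter.1 hwC).1 w w' hwG hwG') (by positivity)
  · set a := idx (line T w (k + 1))
    set a' := idx (line T w' (k + 1))
    have hne : (1 : ℝ) ≤ |(a : ℝ) - a'| := by
      have : (a : ℤ) - a' ≠ 0 := by
        rw [sub_ne_zero]
        exact_mod_cast fun h' => heq (hinj _ hwC _ hwC' h')
      exact_mod_cast Int.one_le_abs this
    have hd : dist w w' ≤ 4 * rad r₀ k := by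
      have h1 := dist_leaf_lt T hr hw.mem hk
      have h2 := dist_leaf_lt T hr hw'.mem hk
      rw [hw.start] at h1
      rw [hw'.start] at h2
      linarith [dist_triangle_right w w' z]
    have hsep : rad r₀ k / N ≤ ‖((((a : ℝ) + 1) * (rad r₀ k / N)) • e₀ -
        (((a' : ℝ) + 1) * (rad r₀ k / N)) • e₀)‖ := by
      rw [← sub_smul, norm_smul, he, mul_one, Real.norm_eq_abs, ← sub_mul, add_sub_add_right_eq_sub,
        abs_mul, abs_of_pos (by positivity : 0 < rad r₀ k / N)]
      exact le_mul_of_one_le_left (by positivity) hne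
    have e : u w - u w' = ((((a : ℝ) + 1) * (rad r₀ k / N)) • e₀ -
        (((a' : ℝ) + 1) * (rad r₀ k / N)) • e₀) +
          ((2 / N) • v (line T w (k + 1)) w - (2 / N) • v (line T w' (k + 1)) w') := by
      simp only [hu]
      abel
    have h3 : ‖(2 / N) • v (line T w (k + 1)) w - (2 / N) • v (line T w' (k + 1)) w'‖ ≤
        rad r₀ k / N / 2 := by
      refine (norm_sub_le _ _).trans ?_
      linarith [hsmall (line T w (k + 1)) w, hsmall (line T w' (k + 1)) w']
    rw [e]
    refine le_trans ?_ (norm_sub_le_norm_add _ _)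
    have h4 : min (2 / N * c) (1 / (8 * N)) * dist w w' ≤ 1 / (8 * N) * (4 * rad r₀ k) :=
      mul_le_mul (min_le_right _ _) hd dist_nonneg (by positivity)
    have h5 : 1 / (8 * N) * (4 * rad r₀ k) = rad r₀ k / N / 2 := by field_simp; ring
    linarith

/-- Below any cell the stops are embedded by the runs and each gets a small disc. -/
lemma cellMaps_of_bigMaps {ε L c cb : ℝ} {m : ℕ} (hc : 0 < c) (hc1 : c ≤ 1)
    (hrun : ∀ (x₀ : Sp d), x₀ ∈ μ.support → ∀ r₀ : ℝ, 0 < r₀ →
      ∀ (K : ℕ) (T : Tree μ x₀ r₀ K) (a : ℕ) (z : Sp d), ∃ U : ℕ → Sp d → Sp n,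
        (∀ k P, ‖U k P‖ ≤ rad r₀ a / 2) ∧
        ∀ w w' k k', IsRun n T ε L a z w k → IsRun n T ε L a z w' k' → k ≤ k' →
          line T w k ≠ line T w' k →
          c * dist (line T w k) (line T w' k') ≤ ‖U k (line T w k) - U k' (line T w' k')‖)
    (h : BigMaps n μ ε L m cb) : CellMaps n μ ε L m (min (c / 34) (min cb (c / 16 * cb))) := by
  intro x₀ hx₀ r₀ hr K T a ha z hz
  set σ := c / 16 with hσ
  have hσ0 : 0 < σ := by positivity
  set cm := min (c / 34) (min cb (σ * cb)) with hcm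
  have hρ := rad_pos hr a
  by_cases hzb : ε < cellGeo n T a z
  · obtain ⟨u, hu, hu'⟩ := h x₀ hx₀ r₀ hr K T a ha z hz hzb
    exact ⟨u, hu, fun w w' hw hw' => (mul_le_mul_of_nonneg_right
      ((min_le_right _ _).trans (min_le_left _ _)) dist_nonneg).trans (hu' w w' hw hw')⟩
  rcases eq_or_lt_of_le ha with rfl | haK
  · refine ⟨fun _ => 0, fun w => by simpa using hρ.le, fun w w' hw hw' => ?_⟩
    rw [← line_top T w, ← line_top T w', hw.start, hw'.start]
    simp
  obtain ⟨U, hU, hUlip⟩ := hrun x₀ hx₀ r₀ hr K T a z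
  have hdisc : ∀ k y, ∃ v : Sp d → Sp n, (∀ w, ‖v w‖ ≤ rad r₀ k) ∧
      (k ≤ K → y ∈ T.net k → ε < cellGeo n T k y → ∀ w w', IsGood n T ε L k y m w →
        IsGood n T ε L k y m w' → cb * dist w w' ≤ ‖v w - v w'‖) := by
    intro k y
    by_cases hy : k ≤ K ∧ y ∈ T.net k ∧ ε < cellGeo n T k y
    · obtain ⟨v, hv, hv'⟩ := h x₀ hx₀ r₀ hr K T k hy.1 y hy.2.1 hy.2.2
      exact ⟨v, hv, fun _ _ _ => hv'⟩
    · exact ⟨fun _ => 0, fun w => by simpa using (rad_pos hr _).le,
        fun h1 h2 h3 => absurd ⟨h1, h2, h3⟩ hy⟩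
  choose v hv hvlip using hdisc
  classical
  have hex : ∀ w, ∃ i, a ≤ i ∧ (K ≤ i ∨ ε < cellGeo n T i (line T w i)) :=
    fun w => ⟨K, ha, Or.inl le_rfl⟩
  set s : Sp d → ℕ := fun w => Nat.find (hex w) with hs
  have hsK : ∀ w, s w ≤ K := fun w => Nat.find_le ⟨ha, Or.inl le_rfl⟩
  have has : ∀ w, a ≤ s w := fun w => (Nat.find_spec (hex w)).1
  have hbefore : ∀ w i, a ≤ i → i < s w → ¬ε < cellGeo n T i (line T w i) := fun w i hai hi hb =>
    Nat.find_min (hex w) hi ⟨hai, Or.inr hb⟩
  set u : Sp d → Sp n := fun w => U (s w) (line T w (s w)) + σ • v (s w) (line T w (s w)) w with hu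
  refine ⟨u, fun w => ?_, ?_⟩
  · refine (norm_add_le _ _).trans ?_
    rw [norm_smul, Real.norm_of_nonneg hσ0.le]
    have h1 := hU (s w) (line T w (s w))
    have h2 : σ * ‖v (s w) (line T w (s w)) w‖ ≤ 1 / 16 * rad r₀ a :=
      mul_le_mul (by rw [hσ]; linarith) ((hv _ _ _).trans (rad_anti hr (has w))) (norm_nonneg _)
        (by norm_num)
    linarith
  suffices H : ∀ w w', IsGood n T ε L a z m w → IsGood n T ε L a z m w' → s w ≤ s w' →
      cm * dist w w' ≤ ‖u w - u w'‖ by
    intro w w' hw hw'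
    rcases le_total (s w) (s w') with hle | hle
    · exact H w w' hw hw' hle
    · rw [dist_comm, norm_sub_rev]; exact H w' w hw' hw hle
  intro w w' hw hw' hle
  have hlt : ∀ w, IsGood n T ε L a z m w → a < s w := by
    intro w hw
    refine lt_of_le_of_ne (has w) fun he => ?_
    rcases (Nat.find_spec (hex w)).2 with h1 | h1
    · change K ≤ s w at h1; omega
    · change ε < cellGeo n T (s w) (line T w (s w)) at h1
      rw [← he, hw.start] at h1
      exact hzb h1
  have hrun' : ∀ w, IsGood n T ε L a z m w → IsRun n T ε L a z w (s w) := fun w hw =>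
    { mem := hw.mem
      start := hw.start
      lt := hlt w hw
      le := hsK w
      small := fun i hi => not_lt.1 (hbefore w i (mem_Ico.1 hi).1 (mem_Ico.1 hi).2)
      sum_le := (sum_le_sum_of_subset_of_nonneg (fun i hi => mem_Icc.2
        ⟨(mem_Ico.1 hi).1, ((mem_Ico.1 hi).2.trans_le (hsK w)).le⟩) fun i _ _ => sq_nonneg _).trans
          hw.sum_le }
  by_cases heq : line T w (s w) = line T w' (s w)
  · have hss : s w' = s w := by
      refine le_antisymm (Nat.find_le ⟨has w, ?_⟩) hle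
      rw [← heq]
      exact (Nat.find_spec (hex w)).2
    rcases (Nat.find_spec (hex w)).2 with h1 | h1
    · have hK : s w = K := le_antisymm (hsK w) h1
      rw [hK, line_top, line_top] at heq
      subst heq
      simp
    change ε < cellGeo n T (s w) (line T w (s w)) at h1
    have hG : ∀ x, IsGood n T ε L a z m x → IsGood n T ε L (s w) (line T x (s w)) m x :=
      fun x hx => ⟨hx.mem, rfl,
        (card_le_card (filter_subset_filter _ (Icc_subset_Icc_left (has w)))).trans hx.few,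
        (sum_le_sum_of_subset_of_nonneg (Icc_subset_Icc_left (has w))
          fun i _ _ => sq_nonneg _).trans hx.sum_le⟩
    have hG' := hG w' hw'
    rw [← heq] at hG'
    have hb := hvlip _ _ (hsK w) (line_mem T hw.mem (hsK w)) h1 w w' (hG w hw) hG'
    have e : u w - u w' = σ • (v (s w) (line T w (s w)) w - v (s w) (line T w (s w)) w') := by
      simp only [hu, hss, ← heq]
      module
    rw [e, norm_smul, Real.norm_of_nonneg hσ0.le]
    calc cm * dist w w' ≤ σ * (cb * dist w w') := by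
          rw [← mul_assoc]
          exact mul_le_mul_of_nonneg_right ((min_le_right _ _).trans (min_le_right _ _)) dist_nonneg
      _ ≤ _ := mul_le_mul_of_nonneg_left hb hσ0.le
  · set P := line T w (s w)
    set P' := line T w' (s w')
    have hD : rad r₀ (s w) / 4 ≤ dist P P' :=
      (sep_line T hr hw.mem hw'.mem hle (hsK w') heq).trans_eq (dist_comm _ _)
    have hrad : rad r₀ (s w') ≤ rad r₀ (s w) := rad_anti hr hle
    have h1 := hUlip w w' _ _ (hrun' w hw) (hrun' w' hw') hle heq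
    have hd : dist w w' ≤ 17 * dist P P' := by
      have h2 := dist_leaf_lt T hr hw.mem (hsK w)
      have h3 := dist_leaf_lt T hr hw'.mem (hsK w')
      linarith [dist_triangle4 w P P' w', dist_comm P' w']
    have h4 : ‖σ • v (s w) P w - σ • v (s w') P' w'‖ ≤ c / 2 * dist P P' := by
      refine (norm_sub_le _ _).trans ?_
      rw [norm_smul, norm_smul, Real.norm_of_nonneg hσ0.le]
      have := mul_le_mul_of_nonneg_left (hv (s w) P w) hσ0.le
      have := mul_le_mul_of_nonneg_left (hv (s w') P' w') hσ0.le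
      have := mul_le_mul_of_nonneg_left hrad hσ0.le
      have := mul_le_mul_of_nonneg_left hD hσ0.le
      rw [hσ] at *
      linarith
    have h5 : cm * dist w w' ≤ c / 2 * dist P P' :=
      (mul_le_mul (min_le_left _ _) hd dist_nonneg (by positivity)).trans_eq (by ring)
    have e : u w - u w' = (U (s w) P - U (s w') P') + (σ • v (s w) P w - σ • v (s w') P' w') := by
      simp only [hu, P, P']
      abel
    rw [e]
    have h6 := norm_sub_norm_le (U (s w) P - U (s w') P') (-(σ • v (s w) P w - σ • v (s w') P' w'))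
    rw [norm_neg, sub_neg_eq_add] at h6
    linarith

/-- Leaves of bounded square sum embed co-Lipschitz in the ball of the root. -/
theorem exists_embed [Nonempty (Plane n d)] (hn : 1 ≤ n) (hP : PlaneSpec n d) (μ : Measure (Sp d))
    [IsLocallyFiniteMeasure μ] (C₀ : ℝ) (hμ : Reg n C₀ μ) (L : ℝ) :
    ∃ c : ℝ, 0 < c ∧ ∀ (x₀ : Sp d), x₀ ∈ μ.support → ∀ r₀ : ℝ, 0 < r₀ →
      ∀ (K : ℕ) (T : Tree μ x₀ r₀ K), ∃ u : Sp d → Sp n,
        ∀ w ∈ T.net K, ∑ i ∈ range (K + 1), cellGeo n T i (line T w i) ^ 2 ≤ L →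
          ‖u w‖ ≤ r₀ ∧
          ∀ w' ∈ T.net K, ∑ i ∈ range (K + 1), cellGeo n T i (line T w' i) ^ 2 ≤ L →
            c * dist w w' ≤ ‖u w - u w'‖ := by
  obtain ⟨ε, hε, c, hc, hc1, hrun⟩ := exists_run hP μ C₀ hμ L
  have key : ∀ m, ∃ cm : ℝ, 0 < cm ∧ CellMaps n μ ε L m cm := by
    intro m
    induction m with
    | zero =>
      exact ⟨_, lt_min (by positivity) (lt_min one_pos (by positivity)),
        cellMaps_of_bigMaps hc hc1 hrun bigMaps_zero⟩
    | succ m ih =>
      obtain ⟨cm, hcm, hm⟩ := ih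
      obtain ⟨cb, hcb, hb⟩ := bigMaps_succ hn hcm hm
      exact ⟨_, lt_min (by positivity) (lt_min hcb (by positivity)),
        cellMaps_of_bigMaps hc hc1 hrun hb⟩
  obtain ⟨cm, hcm, hmaps⟩ := key ⌈L / ε ^ 2⌉₊
  refine ⟨cm, hcm, fun x₀ hx₀ r₀ hr K T => ?_⟩
  obtain ⟨u, hu, hlip⟩ := hmaps x₀ hx₀ r₀ hr K T 0 (Nat.zero_le K) x₀
    (by rw [T.net_zero]; exact mem_singleton_self x₀)
  have hgood : ∀ w ∈ T.net K, ∑ i ∈ range (K + 1), cellGeo n T i (line T w i) ^ 2 ≤ L →
      IsGood n T ε L 0 x₀ ⌈L / ε ^ 2⌉₊ w := by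
    intro w hw hs
    have e : Icc 0 K = range (K + 1) := by ext i; simp
    refine ⟨hw, line_zero T hw, ?_, by rwa [e]⟩
    rw [e]
    set F := (range (K + 1)).filter fun i => ε < cellGeo n T i (line T w i)
    have h1 : (F.card : ℝ) * ε ^ 2 ≤ L := by
      calc (F.card : ℝ) * ε ^ 2 = ∑ i ∈ F, ε ^ 2 := by simp
        _ ≤ ∑ i ∈ F, cellGeo n T i (line T w i) ^ 2 :=
          sum_le_sum fun i hi => pow_le_pow_left₀ hε.le (mem_filter.1 hi).2.le 2
        _ ≤ _ := (sum_le_sum_of_subset_of_nonneg (filter_subset _ _)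
          fun i _ _ => sq_nonneg _).trans hs
    exact_mod_cast ((le_div_iff₀ (by positivity)).2 h1).trans (Nat.le_ceil _)
  exact ⟨u, fun w hw hs => ⟨by simpa [rad] using hu w,
    fun w' hw' hs' => hlip w w' (hgood w hw hs) (hgood w' hw' hs')⟩⟩

end Vale.Agent.P120.Param
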