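import Vale.Agent.P120.Param.Defs
import Mathlib.MeasureTheory.Measure.Haar.InnerProductSpace
import Mathlib.MeasureTheory.Measure.Lebesgue.EqHaar

/-!
# P120, parametrisation: lineages of leaves and packing of centres
-/

open MeasureTheory Finset Metric

namespace Vale.Agent.P120.Param

variable {n d : ℕ} {μ : Measure (Sp d)} {x₀ : Sp d} {r₀ : ℝ} {K : ℕ}

lemma rad_pos (hr : 0 < r₀) (k : ℕ) : 0 < rad r₀ k := by unfold rad; positivity

lemma rad_succ (r₀ : ℝ) (k : ℕ) : rad r₀ (k + 1) = rad r₀ k / 8 := by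
  unfold rad; rw [pow_succ]; field_simp

lemma rad_anti (hr : 0 < r₀) {i j : ℕ} (h : i ≤ j) : rad r₀ j ≤ rad r₀ i := by
  unfold rad
  gcongr
  norm_num

lemma cellRad_eq (r₀ : ℝ) (k : ℕ) : cellRad r₀ k = 16 * rad r₀ k := rfl

lemma anc_mem_net (T : Tree μ x₀ r₀ K) : ∀ {k : ℕ} {z : Sp d}, k ≤ K → z ∈ T.net k →
    ∀ j ≤ k, T.anc k z j ∈ T.net (k - j) := by
  intro k
  induction k with
  | zero =>
    intro z hk hz j hj
    rw [Nat.le_zero.1 hj, T.anc_zero]
    exact hz
  | succ k ih =>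
    intro z hk hz j hj
    cases j with
    | zero => rw [T.anc_zero]; exact hz
    | succ j =>
      rw [T.anc_succ, Nat.add_sub_add_right]
      exact ih (Nat.le_of_succ_le hk) (T.up_mem k hk z hz) j (Nat.le_of_succ_le_succ hj)

lemma up_anc (T : Tree μ x₀ r₀ K) : ∀ {k j : ℕ} (z : Sp d), j < k →
    T.up (k - (j + 1)) (T.anc k z j) = T.anc k z (j + 1) := by
  intro k
  induction k with
  | zero => intro j z hj; omega
  | succ k ih =>
    intro j z hj
    cases j with
    | zero => rw [T.anc_zero, T.anc_succ, T.anc_zero]; rfl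
    | succ j =>
      rw [T.anc_succ, T.anc_succ, Nat.add_sub_add_right]
      exact ih _ (Nat.lt_of_succ_lt_succ hj)

lemma line_mem (T : Tree μ x₀ r₀ K) {w : Sp d} (hw : w ∈ T.net K) {i : ℕ} (hi : i ≤ K) :
    line T w i ∈ T.net i := by
  have h := anc_mem_net T le_rfl hw (K - i) (Nat.sub_le _ _)
  rwa [Nat.sub_sub_self hi] at h

lemma line_top (T : Tree μ x₀ r₀ K) (w : Sp d) : line T w K = w := by
  rw [line, Nat.sub_self, T.anc_zero]

lemma line_zero (T : Tree μ x₀ r₀ K) {w : Sp d} (hw : w ∈ T.net K) : line T w 0 = x₀ := by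
  have h := line_mem T hw (Nat.zero_le _)
  rwa [T.net_zero, mem_singleton] at h

lemma up_line (T : Tree μ x₀ r₀ K) (w : Sp d) {i : ℕ} (hi : i < K) :
    T.up i (line T w (i + 1)) = line T w i := by
  have h := up_anc T (k := K) (j := K - (i + 1)) w (by omega)
  rwa [show K - (K - (i + 1) + 1) = i by omega, show K - (i + 1) + 1 = K - i by omega] at h

lemma center_mem_cell (T : Tree μ x₀ r₀ K) (hr : 0 < r₀) {k : ℕ} (hk : k ≤ K) {z : Sp d}
    (hz : z ∈ T.net k) : z ∈ T.cell k z :=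
  T.inner k hk z hz ⟨T.mem k hk z hz, mem_ball_self (by positivity)⟩

lemma cell_line_subset (T : Tree μ x₀ r₀ K) {w : Sp d} (hw : w ∈ T.net K) {i j : ℕ}
    (hij : i ≤ j) (hj : j ≤ K) : T.cell j (line T w j) ⊆ T.cell i (line T w i) := by
  induction j, hij using Nat.le_induction with
  | base => exact subset_rfl
  | succ j hij ih =>
    intro x hx
    exact ih (Nat.le_of_succ_le hj) ((T.split j hj _ (line_mem T hw (Nat.le_of_succ_le hj)) x).2
      ⟨_, line_mem T hw hj, up_line T w hj, hx⟩)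

lemma dist_line_lt (T : Tree μ x₀ r₀ K) (hr : 0 < r₀) {w : Sp d} (hw : w ∈ T.net K) {i j : ℕ}
    (hij : i ≤ j) (hj : j ≤ K) : dist (line T w j) (line T w i) < 2 * rad r₀ i :=
  (T.subset i (hij.trans hj) _ (line_mem T hw (hij.trans hj))
    (cell_line_subset T hw hij hj (center_mem_cell T hr hj (line_mem T hw hj)))).2

lemma sep_line (T : Tree μ x₀ r₀ K) (hr : 0 < r₀) {w w' : Sp d} (hw : w ∈ T.net K)
    (hw' : w' ∈ T.net K) {k k' : ℕ} (hkk : k ≤ k') (hk' : k' ≤ K)
    (hne : line T w k ≠ line T w' k) :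
    rad r₀ k / 4 ≤ dist (line T w' k') (line T w k) := by
  have hk := hkk.trans hk'
  have h1 := cell_line_subset T hw' hkk hk'
    (center_mem_cell T hr hk' (line_mem T hw' hk'))
  by_contra h
  have h2 : line T w' k' ∈ T.cell k (line T w k) :=
    T.inner k hk _ (line_mem T hw hk) ⟨T.mem k' hk' _ (line_mem T hw' hk'), mem_ball.2 (by
      rw [rad] at h; push Not at h; exact h)⟩
  exact Set.disjoint_left.1 (T.disj k hk (line_mem T hw hk) (line_mem T hw' hk) hne) h2 h1

lemma exists_leaf (T : Tree μ x₀ r₀ K) {x : Sp d} (hx : x ∈ T.cell 0 x₀) :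
    ∃ w ∈ T.net K, x ∈ T.cell K w := by
  have : ∀ k ≤ K, ∃ z ∈ T.net k, x ∈ T.cell k z := by
    intro k
    induction k with
    | zero => exact fun _ => ⟨x₀, by rw [T.net_zero]; exact mem_singleton_self _, hx⟩
    | succ k ih =>
      intro hk
      obtain ⟨z, hz, hxz⟩ := ih (Nat.le_of_succ_le hk)
      obtain ⟨w, hw, -, hxw⟩ := (T.split k hk z hz x).1 hxz
      exact ⟨w, hw, hxw⟩
  exact this K le_rfl

lemma sum_line_le (T : Tree μ x₀ r₀ K) {x w : Sp d} (hw : w ∈ T.net K)
    (hx : x ∈ T.cell K w) :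
    ∑ i ∈ range (K + 1), cellGeo n T i (line T w i) ^ 2 ≤
      ∑ k ∈ range (K + 1), ∑ z ∈ T.net k,
        (T.cell k z).indicator (fun _ => cellGeo n T k z ^ 2) x := by
  refine sum_le_sum fun i hi => ?_
  have hi' : i ≤ K := Nat.lt_succ_iff.1 (mem_range.1 hi)
  have hxi : x ∈ T.cell i (line T w i) :=
    cell_line_subset T hw hi' le_rfl (by rwa [line_top])
  refine le_of_eq_of_le ?_ (single_le_sum
    (f := fun z => (T.cell i z).indicator (fun _ => cellGeo n T i z ^ 2) x)
    (fun z _ => Set.indicator_nonneg (fun _ _ => sq_nonneg _) _) (line_mem T hw hi'))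
  simp [Set.indicator_of_mem hxi]

/-- A separated set in a ball is small. -/
lemma card_le_of_apart (s : Finset (Sp d)) {p : Sp d} {R a : ℝ} (ha : 0 < a) (hR : 0 ≤ R)
    (hball : ∀ z ∈ s, dist z p ≤ R)
    (hsep : ∀ z ∈ s, ∀ w ∈ s, z ≠ w → a ≤ dist z w) :
    (s.card : ℝ) ≤ (1 + 2 * R / a) ^ d := by
  rcases Nat.eq_zero_or_pos d with hd | hd
  · subst hd
    have : s.card ≤ 1 := card_le_one.2 fun z _ w _ => Subsingleton.elim z w
    simpa using this
  have : Nonempty (Fin d) := ⟨⟨0, hd⟩⟩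
  set m : Measure (Sp d) := volume
  have hfin : ∀ q : Sp d, ∀ ρ : ℝ, 0 ≤ ρ → m.real (ball q ρ) = ρ ^ d * m.real (ball (0 : Sp d) 1) := by
    intro q ρ hρ
    rw [measureReal_def, measureReal_def, Measure.addHaar_ball m q hρ, ENNReal.toReal_mul,
      ENNReal.toReal_ofReal (by positivity)]
    simp
  have h0 : 0 < m.real (ball (0 : Sp d) 1) :=
    ENNReal.toReal_pos (measure_ball_pos m _ one_pos).ne' measure_ball_lt_top.ne
  have hdisj : (s : Set (Sp d)).PairwiseDisjoint fun z => ball z (a / 2) := by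
    intro z hz w hw hne
    exact ball_disjoint_ball (by linarith [hsep z hz w hw hne])
  have hsub : (⋃ z ∈ s, ball z (a / 2)) ⊆ ball p (R + a / 2) := by
    simp only [Set.iUnion_subset_iff]
    exact fun z hz => ball_subset_ball' (by linarith [hball z hz])
  have h1 : ∑ z ∈ s, m.real (ball z (a / 2)) ≤ m.real (ball p (R + a / 2)) := by
    rw [← measureReal_biUnion_finset hdisj (fun z _ => measurableSet_ball)]
    exact measureReal_mono hsub measure_ball_lt_top.ne
  rw [sum_congr rfl fun z _ => hfin z _ (by positivity : 0 ≤ a / 2), sum_const, nsmul_eq_mul,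
    hfin p _ (by positivity)] at h1
  have h2 : (s.card : ℝ) * (a / 2) ^ d ≤ (R + a / 2) ^ d :=
    le_of_mul_le_mul_right (by linarith [h1]) h0
  calc (s.card : ℝ) ≤ (R + a / 2) ^ d / (a / 2) ^ d := (le_div_iff₀ (by positivity)).2 h2
    _ = (1 + 2 * R / a) ^ d := by rw [← div_pow]; congr 1; field_simp; ring

end Vale.Agent.P120.Param
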