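import Vale.Agent.P120.Param.Lineage

/-!
# P120, parametrisation: one step of averaged projections

Two points are pushed by convex combinations of projections on planes nearly containing them:
their difference shrinks to second order only, and its normal part is renewed from the planes.
-/

open MeasureTheory Finset Metric
open scoped RealInnerProductSpace

namespace Vale.Agent.P120

variable {n d : ℕ}

namespace Plane

variable (P : Plane n d)

lemma dir_sub (u v : Sp d) : P.dir (u - v) = P.dir u - P.dir v := by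
  simp [Plane.dir, inner_sub_right, sub_smul, sum_sub_distrib]

lemma perp_sub (u v : Sp d) : P.perp (u - v) = P.perp u - P.perp v := by
  simp only [Plane.perp, dir_sub]; abel

lemma dir_sum_smul {ι : Type*} (s : Finset ι) (a : ι → ℝ) (v : ι → Sp d) :
    P.dir (∑ c ∈ s, a c • v c) = ∑ c ∈ s, a c • P.dir (v c) := by
  simp only [Plane.dir, inner_sum, real_inner_smul_right, sum_smul, smul_sum, mul_smul]
  exact sum_comm

lemma perp_sum_smul {ι : Type*} (s : Finset ι) (a : ι → ℝ) (v : ι → Sp d) :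
    P.perp (∑ c ∈ s, a c • v c) = ∑ c ∈ s, a c • P.perp (v c) := by
  simp [Plane.perp, dir_sum_smul, smul_sub, sum_sub_distrib]

lemma nrm_eq (y : Sp d) : P.nrm y = P.perp (y - P.base) := rfl

lemma nrm_sub_nrm (y y' : Sp d) : P.nrm y - P.nrm y' = P.perp (y - y') := by
  rw [nrm_eq, nrm_eq, ← perp_sub, sub_sub_sub_cancel_right]

lemma proj_sub_proj (y y' : Sp d) : P.proj y - P.proj y' = P.dir (y - y') := by
  have h : P.nrm y - P.nrm y' = (y - y') - P.dir (y - y') := P.nrm_sub_nrm y y'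
  simp only [Plane.proj]
  linear_combination (norm := module) -h

lemma inner_frame_perp (j : Fin n) (v : Sp d) : ⟪P.frame j, P.perp v⟫ = 0 := by
  rw [Plane.perp, inner_sub_right, Plane.dir, P.ortho.inner_right_fintype, sub_self]

lemma inner_dir_perp (u v : Sp d) : ⟪P.dir u, P.perp v⟫ = 0 := by
  simp [Plane.dir, sum_inner, real_inner_smul_left, P.inner_frame_perp]

lemma perp_perp (v : Sp d) : P.perp (P.perp v) = P.perp v := by
  have h : P.dir (P.perp v) = 0 :=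
    sum_eq_zero fun j _ => by rw [P.inner_frame_perp, zero_smul]
  rw [Plane.perp, h, sub_zero]

lemma inner_perp (u v : Sp d) : ⟪u, P.perp v⟫ = ⟪P.perp u, P.perp v⟫ := by
  conv_rhs => rw [Plane.perp, inner_sub_left, inner_dir_perp, sub_zero]

lemma norm_sq_add (v : Sp d) : ‖v‖ ^ 2 = ‖P.dir v‖ ^ 2 + ‖P.perp v‖ ^ 2 := by
  conv_lhs => rw [show v = P.dir v + P.perp v by simp [Plane.perp]]
  rw [norm_add_sq_real, inner_dir_perp]; ring

lemma norm_perp_le (v : Sp d) : ‖P.perp v‖ ≤ ‖v‖ :=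
  (sq_le_sq₀ (norm_nonneg _) (norm_nonneg _)).1
    (by linarith [P.norm_sq_add v, sq_nonneg ‖P.dir v‖])

lemma norm_dir_le (v : Sp d) : ‖P.dir v‖ ≤ ‖v‖ :=
  (sq_le_sq₀ (norm_nonneg _) (norm_nonneg _)).1
    (by linarith [P.norm_sq_add v, sq_nonneg ‖P.perp v‖])

lemma norm_nrm_le (y : Sp d) : ‖P.nrm y‖ ≤ dist y P.base :=
  (P.norm_perp_le _).trans_eq (dist_eq_norm _ _).symm

lemma norm_nrm_le_add (y q : Sp d) : ‖P.nrm y‖ ≤ ‖P.nrm q‖ + dist y q := by
  have h := norm_sub_norm_le (P.nrm y) (P.nrm q)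
  rw [nrm_sub_nrm] at h
  linarith [P.norm_perp_le (y - q), dist_eq_norm y q]

lemma dist_proj (y : Sp d) : dist (P.proj y) y = ‖P.nrm y‖ := by
  simp [Plane.proj]

lemma nrm_proj (y : Sp d) : P.nrm (P.proj y) = 0 := by
  have h : P.nrm y - P.nrm (P.proj y) = P.perp (P.nrm y) := by
    rw [nrm_sub_nrm, Plane.proj, sub_sub_cancel]
  rw [show P.perp (P.nrm y) = P.nrm y from P.perp_perp _] at h
  exact sub_eq_self.1 h

lemma nrm_sum_smul {ι : Type*} (s : Finset ι) (a : ι → ℝ) (q : ι → Sp d)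
    (ha : ∑ c ∈ s, a c = 1) : P.nrm (∑ c ∈ s, a c • q c) = ∑ c ∈ s, a c • P.nrm (q c) := by
  simp only [nrm_eq, ← perp_sum_smul, smul_sub, sum_sub_distrib, ← sum_smul, ha, one_smul]

lemma perp_sum_smul_zero {ι : Type*} (s : Finset ι) (a : ι → ℝ) (q : ι → Sp d)
    (ha : ∑ c ∈ s, a c = 0) : P.perp (∑ c ∈ s, a c • q c) = ∑ c ∈ s, a c • P.nrm (q c) := by
  simp only [nrm_eq, ← perp_sum_smul, smul_sub, sum_sub_distrib, ← sum_smul, ha, zero_smul,
    sub_zero]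

end Plane

namespace Param

/-! ### Blends of projections -/

lemma norm_sum_smul_le {ι : Type*} (s : Finset ι) (a : ι → ℝ) (v : ι → Sp d) {B : ℝ}
    (hv : ∀ c ∈ s, ‖v c‖ ≤ B) : ‖∑ c ∈ s, a c • v c‖ ≤ (∑ c ∈ s, |a c|) * B := by
  rw [sum_mul]
  refine (norm_sum_le _ _).trans (sum_le_sum fun c hc => ?_)
  rw [norm_smul, Real.norm_eq_abs]
  exact mul_le_mul_of_nonneg_left (hv c hc) (abs_nonneg _)

lemma norm_convex_le {ι : Type*} (s : Finset ι) (a : ι → ℝ) (v : ι → Sp d) {B : ℝ}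
    (ha0 : ∀ c ∈ s, 0 ≤ a c) (ha : ∑ c ∈ s, a c = 1) (hv : ∀ c ∈ s, ‖v c‖ ≤ B) :
    ‖∑ c ∈ s, a c • v c‖ ≤ B := by
  simpa [sum_congr rfl fun c hc => abs_of_nonneg (ha0 c hc), ha] using norm_sum_smul_le s a v hv

section Blend

variable {ι : Type*} (s : Finset ι) (P : ι → Plane n d) (a a' : ι → ℝ) (y y' : Sp d)

lemma blend_eq :
    ∑ c ∈ s, a c • (P c).proj y - ∑ c ∈ s, a' c • (P c).proj y' =
      ∑ c ∈ s, a c • (P c).dir (y - y') + ∑ c ∈ s, (a c - a' c) • (P c).proj y' := by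
  simp only [← Plane.proj_sub_proj, smul_sub, sub_smul, sum_sub_distrib]
  abel

lemma blend_norm (ha0 : ∀ c ∈ s, 0 ≤ a c) (ha : ∑ c ∈ s, a c = 1) (ha' : ∑ c ∈ s, a' c = 1)
    {A B W : ℝ} (hA : 0 ≤ A) (hB : 0 ≤ B)
    (hperp : ∀ c ∈ s, ‖(P c).perp (y - y')‖ ≤ A * ‖y - y'‖)
    (hnrm : ∀ c ∈ s, ‖(P c).nrm y'‖ ≤ B) (hW : ∑ c ∈ s, |a c - a' c| ≤ W * ‖y - y'‖) :
    (1 - A ^ 2 - A * B * W) * ‖y - y'‖ ≤
      ‖∑ c ∈ s, a c • (P c).proj y - ∑ c ∈ s, a' c • (P c).proj y'‖ := by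
  set v := y - y' with hv
  have hz : ∑ c ∈ s, (a c - a' c) = 0 := by rw [sum_sub_distrib, ha, ha', sub_self]
  have h1 : ⟪v, ∑ c ∈ s, a c • (P c).proj y - ∑ c ∈ s, a' c • (P c).proj y'⟫ =
      ‖v‖ ^ 2 - ∑ c ∈ s, a c * ‖(P c).perp v‖ ^ 2 -
        ∑ c ∈ s, (a c - a' c) * ⟪(P c).perp v, (P c).nrm y'⟫ := by
    have e1 : ∀ c, ⟪v, (P c).dir v⟫ = ‖v‖ ^ 2 - ‖(P c).perp v‖ ^ 2 := fun c => by
      rw [← real_inner_self_eq_norm_sq ((P c).perp v), ← (P c).inner_perp, Plane.perp,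
        inner_sub_right, real_inner_self_eq_norm_sq]
      ring
    have e2 : ∀ c, ⟪v, (P c).proj y'⟫ = ⟪v, y'⟫ - ⟪(P c).perp v, (P c).nrm y'⟫ := fun c => by
      rw [Plane.proj, inner_sub_right]; congr 1
      rw [Plane.nrm_eq]; exact (P c).inner_perp _ _
    rw [blend_eq s P a a' y y', ← hv, inner_add_right, inner_sum, inner_sum]
    simp only [real_inner_smul_right, e1, e2, mul_sub, sum_sub_distrib, ← sum_mul, ha, hz]
    ring
  have h2 : ∑ c ∈ s, a c * ‖(P c).perp v‖ ^ 2 ≤ (A * ‖v‖) ^ 2 := by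
    calc ∑ c ∈ s, a c * ‖(P c).perp v‖ ^ 2 ≤ ∑ c ∈ s, a c * (A * ‖v‖) ^ 2 :=
          sum_le_sum fun c hc => mul_le_mul_of_nonneg_left
            (pow_le_pow_left₀ (norm_nonneg _) (hperp c hc) 2) (ha0 c hc)
      _ = _ := by rw [← sum_mul, ha, one_mul]
  have h3 : ∑ c ∈ s, (a c - a' c) * ⟪(P c).perp v, (P c).nrm y'⟫ ≤
      W * ‖v‖ * (A * ‖v‖ * B) := by
    calc _ ≤ ∑ c ∈ s, |a c - a' c| * (A * ‖v‖ * B) := sum_le_sum fun c hc => by
          refine (le_abs_self _).trans ?_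
          rw [abs_mul]
          exact mul_le_mul_of_nonneg_left ((abs_real_inner_le_norm _ _).trans
            (mul_le_mul (hperp c hc) (hnrm c hc) (norm_nonneg _) (by positivity))) (abs_nonneg _)
      _ ≤ _ := by
          rw [← sum_mul]; exact mul_le_mul_of_nonneg_right hW (by positivity)
  rcases eq_or_ne ‖v‖ 0 with h0 | h0
  · rw [h0, mul_zero]; exact norm_nonneg _
  refine le_of_mul_le_mul_left ?_ (lt_of_le_of_ne (norm_nonneg v) h0.symm)
  refine le_trans ?_ (real_inner_le_norm v _)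
  rw [h1]
  linarith

lemma blend_perp (Q : Plane n d) (ha0 : ∀ c ∈ s, 0 ≤ a c) (ha : ∑ c ∈ s, a c = 1)
    (ha' : ∑ c ∈ s, a' c = 1) {E F W : ℝ} (hF : 0 ≤ F)
    (hdir : ∀ c ∈ s, ‖Q.perp ((P c).dir (y - y'))‖ ≤ E * ‖y - y'‖)
    (hnrm : ∀ c ∈ s, ‖Q.nrm ((P c).proj y')‖ ≤ F)
    (hW : ∑ c ∈ s, |a c - a' c| ≤ W * ‖y - y'‖) :
    ‖Q.perp (∑ c ∈ s, a c • (P c).proj y - ∑ c ∈ s, a' c • (P c).proj y')‖ ≤
      (E + W * F) * ‖y - y'‖ := by
  have hz : ∑ c ∈ s, (a c - a' c) = 0 := by rw [sum_sub_distrib, ha, ha', sub_self]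
  have hadd : ∀ u v : Sp d, Q.perp (u + v) = Q.perp u + Q.perp v := fun u v => by
    rw [eq_add_of_sub_eq (Q.perp_sub (u + v) v).symm, add_sub_cancel_right]
  rw [blend_eq, hadd, Q.perp_sum_smul, Q.perp_sum_smul_zero _ _ _ hz, add_mul]
  refine (norm_add_le _ _).trans (add_le_add (norm_convex_le _ _ _ ha0 ha hdir) ?_)
  refine (norm_sum_smul_le _ _ _ hnrm).trans ?_
  calc _ ≤ W * ‖y - y'‖ * F := mul_le_mul_of_nonneg_right hW hF
    _ = _ := by ring

end Blend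

/-- Normalised weights are Lipschitz in the weights, if these do not all vanish. -/
lemma sum_abs_div_sub_le {ι : Type*} (s : Finset ι) (f f' : ι → ℝ) (hf' : ∀ c ∈ s, 0 ≤ f' c)
    (h : 1 / 8 ≤ ∑ c ∈ s, f c) (h' : 1 / 8 ≤ ∑ c ∈ s, f' c) :
    ∑ c ∈ s, |f c / ∑ e ∈ s, f e - f' c / ∑ e ∈ s, f' e| ≤ 16 * ∑ c ∈ s, |f c - f' c| := by
  set S := ∑ e ∈ s, f e
  set S' := ∑ e ∈ s, f' e with hS'
  have hS : 0 < S := by linarith
  have hS'0 : 0 < S' := by linarith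
  calc ∑ c ∈ s, |f c / S - f' c / S'|
      ≤ ∑ c ∈ s, (|f c - f' c| / S + f' c / S' * (|S' - S| / S)) := sum_le_sum fun c hc => by
        rw [show f c / S - f' c / S' = (f c - f' c) / S + f' c / S' * ((S' - S) / S) by
          field_simp; ring]
        refine (abs_add_le _ _).trans_eq ?_
        rw [abs_div, abs_mul, abs_div, abs_div, abs_of_pos hS, abs_of_pos hS'0,
          abs_of_nonneg (hf' c hc)]
    _ = (∑ c ∈ s, |f c - f' c| + |S' - S|) / S := by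
        rw [sum_add_distrib, ← sum_div, ← sum_mul, ← sum_div, ← hS', div_self hS'0.ne', one_mul,
          add_div]
    _ ≤ 16 * ∑ c ∈ s, |f c - f' c| := by
        have : |S' - S| ≤ ∑ c ∈ s, |f c - f' c| := by
          rw [abs_sub_comm, ← sum_sub_distrib]; exact abs_sum_le_sum_abs _ _
        rw [div_le_iff₀ hS]
        nlinarith [sum_nonneg fun c (_ : c ∈ s) => abs_nonneg (f c - f' c)]

/-! ### Tents and averages -/

variable {μ : Measure (Sp d)} {x₀ : Sp d} {r₀ : ℝ} {K : ℕ}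

open Classical in
/-- The centres of generation `i` near a point. -/
noncomputable def near (T : Tree μ x₀ r₀ K) (i : ℕ) (c₀ : Sp d) : Finset (Sp d) :=
  (T.net i).filter fun c => dist c c₀ ≤ 20 * rad r₀ i

lemma mem_near {T : Tree μ x₀ r₀ K} {i : ℕ} {c₀ c : Sp d} :
    c ∈ near T i c₀ ↔ c ∈ T.net i ∧ dist c c₀ ≤ 20 * rad r₀ i := by
  classical simp [near]

lemma card_near_le (T : Tree μ x₀ r₀ K) (hr : 0 < r₀) {i : ℕ} (hi : i ≤ K) (c₀ : Sp d) :
    ((near T i c₀).card : ℝ) ≤ 41 ^ d := by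
  have h := rad_pos hr i
  refine (card_le_of_apart _ h (R := 20 * rad r₀ i) (by positivity)
    (fun z hz => (mem_near.1 hz).2) fun z hz w hw hne =>
      T.apart i hi z (mem_near.1 hz).1 w (mem_near.1 hw).1 hne).trans_eq ?_
  congr 1; field_simp; norm_num

lemma tent_nonneg (r₀ : ℝ) (i : ℕ) (c y : Sp d) : 0 ≤ tent r₀ i c y := le_max_left _ _

lemma abs_tent_sub (hr : 0 < r₀) (i : ℕ) (c y y' : Sp d) :
    |tent r₀ i c y - tent r₀ i c y'| ≤ ‖y - y'‖ / (8 * rad r₀ i) := by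
  have h : (0:ℝ) < 8 * rad r₀ i := by have := rad_pos hr i; positivity
  refine (abs_max_sub_max_le_max _ _ _ _).trans ?_
  rw [sub_self, abs_zero, show (1 - dist y c / (8 * rad r₀ i)) - (1 - dist y' c / (8 * rad r₀ i)) =
    (dist y' c - dist y c) / (8 * rad r₀ i) by ring, abs_div, abs_of_pos h, max_le_iff]
  refine ⟨by positivity, ?_⟩
  gcongr
  rw [← dist_eq_norm, dist_comm y y']
  exact abs_dist_sub_le y' y c

variable {T : Tree μ x₀ r₀ K} {i : ℕ} {c₀ y y' : Sp d}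

lemma tent_eq_zero (hr : 0 < r₀) {c : Sp d} (hy : dist y c₀ ≤ 7 * rad r₀ i) (hc : c ∈ T.net i)
    (hn : c ∉ near T i c₀) : tent r₀ i c y = 0 := by
  have h := rad_pos hr i
  rw [mem_near, not_and, not_le] at hn
  refine max_eq_left (sub_nonpos.2 ((le_div_iff₀ (by positivity)).2 ?_))
  linarith [hn hc, dist_triangle c y c₀, dist_comm c y]

lemma sum_near_tent (hr : 0 < r₀) (hc₀ : c₀ ∈ T.net i) (hy : dist y c₀ ≤ 7 * rad r₀ i) :
    1 / 8 ≤ ∑ c ∈ near T i c₀, tent r₀ i c y := by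
  have h := rad_pos hr i
  refine le_trans ?_ (single_le_sum (fun c _ => tent_nonneg r₀ i c y)
    (mem_near.2 ⟨hc₀, by rw [dist_self]; positivity⟩))
  refine le_trans ?_ (le_max_right _ _)
  have : dist y c₀ / (8 * rad r₀ i) ≤ 7 / 8 := by
    rw [div_le_iff₀ (by positivity)]; linarith
  linarith

variable [Nonempty (Plane n d)]

/-- The weight of a cell in the average, for points near `c₀`. -/
noncomputable def wt (T : Tree μ x₀ r₀ K) (i : ℕ) (c₀ y c : Sp d) : ℝ :=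
  tent r₀ i c y / ∑ e ∈ near T i c₀, tent r₀ i e y

lemma avg_eq (hr : 0 < r₀) (hy : dist y c₀ ≤ 7 * rad r₀ i) :
    avg n T i y = ∑ c ∈ near T i c₀, wt T i c₀ y c • (plane (n := n) μ r₀ i c).proj y := by
  have hsub : near T i c₀ ⊆ T.net i := fun c hc => (mem_near.1 hc).1
  rw [avg, ← sum_subset hsub fun c hc hn => tent_eq_zero hr hy hc hn,
    ← sum_subset hsub fun c hc hn => by rw [tent_eq_zero hr hy hc hn, zero_smul], smul_sum]
  exact sum_congr rfl fun c _ => by rw [wt, smul_smul, div_eq_inv_mul]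

omit [Nonempty (Plane n d)] in
lemma wt_nonneg (c : Sp d) : 0 ≤ wt T i c₀ y c :=
  div_nonneg (tent_nonneg _ _ _ _) (sum_nonneg fun _ _ => tent_nonneg _ _ _ _)

omit [Nonempty (Plane n d)] in
lemma sum_wt (hr : 0 < r₀) (hc₀ : c₀ ∈ T.net i) (hy : dist y c₀ ≤ 7 * rad r₀ i) :
    ∑ c ∈ near T i c₀, wt T i c₀ y c = 1 := by
  have := sum_near_tent hr hc₀ hy
  simp only [wt]
  rw [← sum_div, div_self (by positivity)]

omit [Nonempty (Plane n d)] in
lemma sum_abs_wt_sub (hr : 0 < r₀) (hi : i ≤ K) (hc₀ : c₀ ∈ T.net i)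
    (hy : dist y c₀ ≤ 7 * rad r₀ i) (hy' : dist y' c₀ ≤ 7 * rad r₀ i) :
    ∑ c ∈ near T i c₀, |wt T i c₀ y c - wt T i c₀ y' c| ≤
      2 * 41 ^ d / rad r₀ i * ‖y - y'‖ := by
  refine (sum_abs_div_sub_le _ _ _ (fun _ _ => tent_nonneg _ _ _ _) (sum_near_tent hr hc₀ hy)
    (sum_near_tent hr hc₀ hy')).trans ?_
  refine le_trans (mul_le_mul_of_nonneg_left (sum_le_card_nsmul _ _ _
    fun c _ => abs_tent_sub hr i c y y') (by norm_num)) ?_
  rw [nsmul_eq_mul]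
  have h := rad_pos hr i
  calc (16:ℝ) * ((near T i c₀).card * (‖y - y'‖ / (8 * rad r₀ i)))
      = 2 * (near T i c₀).card / rad r₀ i * ‖y - y'‖ := by field_simp; ring
    _ ≤ _ := by gcongr; exact card_near_le T hr hi c₀

end Param

end Vale.Agent.P120
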