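import Vale.Agent.P120.Param.Compare
import Vale.Agent.P120.Param.Step

/-!
# P120, parametrisation: runs of cells of small flatness

Along a run the end is pushed up by the averaged projections to the plane of the first cell; the
coordinates there separate the ends of two runs.
-/

open MeasureTheory Finset Metric
open scoped RealInnerProductSpace

namespace Vale.Agent.P120.Param

variable {n d : ℕ}

/-- The lineage of `w` has small flatness from generation `a` to just before `k`, and square sum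
there at most `L`. -/
structure IsRun (n : ℕ) {μ : Measure (Sp d)} {x₀ : Sp d} {r₀ : ℝ} {K : ℕ} (T : Tree μ x₀ r₀ K)
    (ε L : ℝ) (a : ℕ) (z w : Sp d) (k : ℕ) : Prop where
  mem : w ∈ T.net K
  start : line T w a = z
  lt : a < k
  le : k ≤ K
  small : ∀ i ∈ Ico a k, cellGeo n T i (line T w i) ≤ ε
  sum_le : ∑ i ∈ Ico a k, cellGeo n T i (line T w i) ^ 2 ≤ L

lemma geo_nonneg (n : ℕ) {μ : Measure (Sp d)} {x₀ : Sp d} {r₀ : ℝ} {K : ℕ}
    (T : Tree μ x₀ r₀ K) (k : ℕ) (z : Sp d) : 0 ≤ cellGeo n T k z := by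
  refine le_min zero_le_one (tsum_nonneg fun j => mul_nonneg (by positivity) ?_)
  unfold flatness
  split_ifs
  · exact Real.sqrt_nonneg _
  · exact zero_le_one

lemma exp_neg_two_mul_le {x : ℝ} (h0 : 0 ≤ x) (h : x ≤ 1 / 2) : Real.exp (-(2 * x)) ≤ 1 - x := by
  have h1 := Real.add_one_le_exp (2 * x)
  have h2 : 0 < Real.exp (2 * x) := Real.exp_pos _
  rw [Real.exp_neg, inv_eq_one_div, div_le_iff₀ h2]
  nlinarith [mul_le_mul_of_nonneg_left h1 (by linarith : (0:ℝ) ≤ 1 - x)]

section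

variable [Nonempty (Plane n d)] {μ : Measure (Sp d)} {x₀ : Sp d} {r₀ : ℝ} {K : ℕ}

/-- The end `P` of generation `k` after `j` pushes. -/
noncomputable def track (n : ℕ) [Nonempty (Plane n d)] (T : Tree μ x₀ r₀ K) (k : ℕ) (P : Sp d) :
    ℕ → Sp d
  | 0 => (plane (n := n) μ r₀ (k - 1) (T.up (k - 1) P)).proj P
  | j + 1 => avg n T (k - 1 - j) (track n T k P j)

/-- The end `P` of generation `k` seen in generation `i`. -/
noncomputable def pos (n : ℕ) [Nonempty (Plane n d)] (T : Tree μ x₀ r₀ K) (k : ℕ) (P : Sp d)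
    (i : ℕ) : Sp d :=
  track n T k P (k - 1 - i)

lemma pos_last (T : Tree μ x₀ r₀ K) {w : Sp d} {i : ℕ} (hi : i < K) :
    pos n T (i + 1) (line T w (i + 1)) i =
      (plane (n := n) μ r₀ i (line T w i)).proj (line T w (i + 1)) := by
  simp [pos, track, up_line T w hi]

lemma pos_step (T : Tree μ x₀ r₀ K) (P : Sp d) {k i : ℕ} (hi : i + 1 < k) :
    pos n T k P i = avg n T (i + 1) (pos n T k P (i + 1)) := by
  rw [pos, pos, show k - 1 - i = (k - 1 - (i + 1)) + 1 by omega, track,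
    show k - 1 - (k - 1 - (i + 1)) = i + 1 by omega]

/-- What the runs use of the planes: constants and thresholds. -/
structure Hyp (n : ℕ) [Nonempty (Plane n d)] (T : Tree μ x₀ r₀ K) (C ε : ℝ) : Prop where
  pos_r : 0 < r₀
  one_le : 1 ≤ C
  le_quarter : ε ≤ 1 / 4
  small : (50 * C * (1 + 2 * 41 ^ d)) ^ 2 * (1 + 2 * 41 ^ d) * ε ≤ 1 / 4096
  best : ∀ (p : Sp d) (R : ℝ), 0 < R → dist (bestPlane (n := n) μ p R).base p ≤ R
  compare : ∀ i ≤ K, ∀ c₀ ∈ T.net i, cellGeo n T i c₀ ≤ 1 / 4 →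
    ∀ j j' : ℕ, i ≤ j → j ≤ i + 1 → j ≤ K → i ≤ j' → j' ≤ i + 1 → j' ≤ K →
    ∀ c ∈ T.net j, ∀ c' ∈ T.net j', dist c c₀ ≤ 20 * rad r₀ i → dist c' c₀ ≤ 20 * rad r₀ i →
      (∀ v : Sp d, ‖(plane (n := n) μ r₀ j c).perp ((plane (n := n) μ r₀ j' c').dir v)‖ ≤
        C * cellGeo n T i c₀ * ‖v‖) ∧
      ∀ q : Sp d, (plane (n := n) μ r₀ j' c').nrm q = 0 → dist q c₀ ≤ 20 * rad r₀ i →
        ‖(plane (n := n) μ r₀ j c).nrm q‖ ≤ C * cellGeo n T i c₀ * rad r₀ i
  close : ∀ i ≤ K, ∀ c₀ ∈ T.net i, cellGeo n T i c₀ ≤ ε →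
    ∀ y ∈ μ.support, dist y c₀ ≤ 4 * rad r₀ i →
      ‖(plane (n := n) μ r₀ i c₀).nrm y‖ ≤ 1 / 2048 * rad r₀ i

variable {T : Tree μ x₀ r₀ K} {C ε L : ℝ}

lemma Hyp.small' (H : Hyp n T C ε) {g : ℝ} (hg : g ≤ ε) (hg0 : 0 ≤ g) :
    C * g ≤ 1 / 4096 ∧ 50 * C * (1 + 2 * 41 ^ d) * g ≤ 1 / 4096 ∧
      (50 * C * (1 + 2 * 41 ^ d)) ^ 2 * (1 + 2 * 41 ^ d) * g ^ 2 ≤ 1 / 4096 := by
  have hW : (1:ℝ) ≤ 1 + 2 * 41 ^ d := by nlinarith [pow_nonneg (by norm_num : (0:ℝ) ≤ 41) d]
  set A : ℝ := 50 * C * (1 + 2 * 41 ^ d)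
  have hA : C ≤ A := by
    have := H.one_le
    nlinarith [mul_le_mul_of_nonneg_left hW (by linarith : (0:ℝ) ≤ 50 * C)]
  have hA1 : (1:ℝ) ≤ A := H.one_le.trans hA
  have hB : A ≤ A ^ 2 * (1 + 2 * 41 ^ d) := by nlinarith [sq_nonneg A]
  have hg1 : g ≤ 1 := by linarith [H.le_quarter]
  have h : A ^ 2 * (1 + 2 * 41 ^ d) * g ≤ 1 / 4096 :=
    (mul_le_mul_of_nonneg_left hg (by positivity)).trans H.small
  refine ⟨le_trans (mul_le_mul_of_nonneg_right (hA.trans hB) hg0) h,
    le_trans (mul_le_mul_of_nonneg_right hB hg0) h, le_trans ?_ h⟩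
  exact mul_le_mul_of_nonneg_left (by nlinarith) (by positivity)

lemma Hyp.dist_proj_le (H : Hyp n T C ε) (i : ℕ) (c y : Sp d) :
    dist ((plane (n := n) μ r₀ i c).proj y) y ≤ dist y c + 16 * rad r₀ i := by
  rw [Plane.dist_proj]
  refine (Plane.norm_nrm_le _ y).trans ((dist_triangle _ c _).trans ?_)
  rw [dist_comm c, ← cellRad_eq]
  gcongr
  exact H.best _ _ (cellRad_pos H.pos_r i)

variable {a : ℕ} {z w : Sp d} {k : ℕ}

omit [Nonempty (Plane n d)] in
lemma IsRun.dist_lt (R : IsRun n T ε L a z w k) (hr : 0 < r₀) {i : ℕ} (hi : i < k) :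
    dist (line T w k) (line T w i) < 2 * rad r₀ i :=
  dist_line_lt T hr R.mem hi.le R.le

lemma pos_near (H : Hyp n T C ε) (R : IsRun n T ε L a z w k) {i : ℕ} (hai : a ≤ i) (hik : i < k) :
    dist (pos n T k (line T w k) i) (line T w k) ≤ 1 / 256 * rad r₀ i := by
  obtain ⟨j, hj⟩ : ∃ j, i + 1 + j = k := ⟨k - (i + 1), by omega⟩
  induction j generalizing i with
  | zero =>
    obtain rfl : k = i + 1 := by omega
    have hiK : i < K := by have := R.le; omega
    rw [pos_last T hiK, Plane.dist_proj]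
    refine (H.close i hiK.le _ (line_mem T R.mem hiK.le) (R.small i (mem_Ico.2 ⟨hai, hik⟩)) _
      (T.mem _ R.le _ (line_mem T R.mem R.le)) ?_).trans ?_
    · linarith [R.dist_lt H.pos_r hik, rad_pos H.pos_r i]
    · linarith [rad_pos H.pos_r i]
  | succ j ih =>
    have hi1 : i + 1 < k := by omega
    have hK : i + 1 ≤ K := by have := R.le; omega
    have hy := ih (i := i + 1) (by omega) hi1 (by omega)
    set P := line T w k
    set y := pos n T k P (i + 1)
    set c₁ := line T w (i + 1)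
    have hc₁ : c₁ ∈ T.net (i + 1) := line_mem T R.mem hK
    have hr1 := rad_pos H.pos_r (i + 1)
    have hPc : dist P c₁ < 2 * rad r₀ (i + 1) := R.dist_lt H.pos_r hi1
    have hyc : dist y c₁ ≤ 3 * rad r₀ (i + 1) := by linarith [dist_triangle y P c₁]
    have hg := R.small (i + 1) (mem_Ico.2 ⟨by omega, hi1⟩)
    have hA : ‖(plane (n := n) μ r₀ (i + 1) c₁).nrm y‖ ≤
        (1 / 256 + 1 / 2048) * rad r₀ (i + 1) := by
      have := H.close (i + 1) hK c₁ hc₁ hg P (T.mem _ R.le _ (line_mem T R.mem R.le))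
        (by linarith)
      linarith [(plane (n := n) μ r₀ (i + 1) c₁).norm_nrm_le_add y P]
    have hcy : ∀ c ∈ near T (i + 1) c₁, ‖(plane (n := n) μ r₀ (i + 1) c).nrm y‖ ≤
        (1 / 256 + 2 / 2048) * rad r₀ (i + 1) := by
      intro c hc
      set q := (plane (n := n) μ r₀ (i + 1) c₁).proj y
      have hqy : dist q y ≤ (1 / 256 + 1 / 2048) * rad r₀ (i + 1) := by
        rw [Plane.dist_proj]; exact hA
      have hq := (H.compare (i + 1) hK c₁ hc₁ (hg.trans H.le_quarter) (i + 1) (i + 1) le_rfl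
        (by omega) hK le_rfl (by omega) hK c (mem_near.1 hc).1 c₁ hc₁ (mem_near.1 hc).2
        (by rw [dist_self]; positivity)).2 q (Plane.nrm_proj _ _)
        (by linarith [dist_triangle q y c₁])
      have hC := mul_le_mul_of_nonneg_right (H.small' hg (geo_nonneg n T _ _)).1 hr1.le
      linarith [(plane (n := n) μ r₀ (i + 1) c).norm_nrm_le_add y q, dist_comm q y]
    rw [pos_step T P hi1, avg_eq H.pos_r (by linarith : dist y c₁ ≤ 7 * rad r₀ (i + 1))]
    refine (dist_triangle _ y _).trans ?_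
    have hsum := sum_wt (T := T) H.pos_r hc₁ (by linarith : dist y c₁ ≤ 7 * rad r₀ (i + 1))
    have hmove : dist (∑ c ∈ near T (i + 1) c₁,
        wt T (i + 1) c₁ y c • (plane (n := n) μ r₀ (i + 1) c).proj y) y ≤
        (1 / 256 + 2 / 2048) * rad r₀ (i + 1) := by
      rw [dist_eq_norm, show ∀ q : Sp d → Sp d, ∑ c ∈ near T (i + 1) c₁,
          wt T (i + 1) c₁ y c • q c - y = ∑ c ∈ near T (i + 1) c₁,
          wt T (i + 1) c₁ y c • (q c - y) from fun q => by
        simp only [smul_sub, sum_sub_distrib, ← sum_smul, hsum, one_smul]]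
      refine norm_convex_le _ _ _ (fun c _ => wt_nonneg c) hsum fun c hc => ?_
      rw [← dist_eq_norm, Plane.dist_proj]
      exact hcy c hc
    linarith [rad_succ r₀ i]

/-- The pushed end lies on the planes near a small cell up to first order. -/
lemma nrm_pos (H : Hyp n T C ε) (R : IsRun n T ε L a z w k) {i : ℕ} (hai : a ≤ i) (hik : i < k)
    {c₀ : Sp d} (hc₀ : c₀ ∈ T.net i) (hg : cellGeo n T i c₀ ≤ ε)
    (hd : dist (line T w i) c₀ ≤ 8 * rad r₀ i) {c : Sp d} (hc : c ∈ near T i c₀) :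
    ‖(plane (n := n) μ r₀ i c).nrm (pos n T k (line T w k) i)‖ ≤
      C * cellGeo n T i c₀ * rad r₀ i := by
  have hr := rad_pos H.pos_r i
  have hK : i < K := by have := R.le; omega
  have hPc : dist (line T w k) c₀ ≤ 10 * rad r₀ i := by
    linarith [R.dist_lt H.pos_r hik, dist_triangle (line T w k) (line T w i) c₀]
  rcases Nat.eq_or_lt_of_le (Nat.succ_le_of_lt hik) with h | h
  · obtain rfl : k = i + 1 := by omega
    have hnear := pos_near H R hai hik
    rw [pos_last T hK] at hnear ⊢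
    refine (H.compare i hK.le c₀ hc₀ (hg.trans H.le_quarter) i i le_rfl (by omega) hK.le le_rfl
      (by omega) hK.le c (mem_near.1 hc).1 _ (line_mem T R.mem hK.le) (mem_near.1 hc).2
      (by linarith)).2 _ (Plane.nrm_proj _ _) ?_
    linarith [dist_triangle ((plane (n := n) μ r₀ i (line T w i)).proj (line T w (i + 1)))
      (line T w (i + 1)) c₀]
  · have hi1 : i + 1 < k := h
    have hK1 : i + 1 ≤ K := by omega
    set P := line T w k
    set c₁ := line T w (i + 1)
    set y := pos n T k P (i + 1)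
    have hc₁ : c₁ ∈ T.net (i + 1) := line_mem T R.mem hK1
    have h8 := rad_succ r₀ i
    have hy := pos_near H R (by omega : a ≤ i + 1) hi1
    have hPc₁ : dist P c₁ < 2 * rad r₀ (i + 1) := R.dist_lt H.pos_r hi1
    have hyc : dist y c₁ ≤ 3 * rad r₀ (i + 1) := by linarith [dist_triangle y P c₁]
    have hc₁₀ : dist c₁ c₀ ≤ 11 * rad r₀ i := by
      linarith [dist_triangle c₁ P c₀, dist_comm c₁ P]
    have hsum := sum_wt (T := T) H.pos_r hc₁ (by linarith : dist y c₁ ≤ 7 * rad r₀ (i + 1))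
    rw [pos_step T P hi1, avg_eq H.pos_r (by linarith : dist y c₁ ≤ 7 * rad r₀ (i + 1)),
      Plane.nrm_sum_smul _ _ _ _ hsum]
    refine norm_convex_le _ _ _ (fun e _ => wt_nonneg e) hsum fun e he => ?_
    refine (H.compare i hK.le c₀ hc₀ (hg.trans H.le_quarter) i (i + 1) le_rfl (by omega) hK.le
      (by omega) le_rfl hK1 c (mem_near.1 hc).1 e (mem_near.1 he).1 (mem_near.1 hc).2 ?_).2 _
      (Plane.nrm_proj _ _) ?_
    · linarith [dist_triangle e c₁ c₀, (mem_near.1 he).2]
    · linarith [H.dist_proj_le (i + 1) e y, dist_triangle y c₁ e, dist_comm c₁ e, (mem_near.1 he).2,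
        dist_triangle ((plane (n := n) μ r₀ (i + 1) e).proj y) y c₀, dist_triangle y c₁ c₀]

variable {w' : Sp d} {k' : ℕ}

/-- Two pushed ends keep their distance, and their difference stays along the planes. -/
lemma pair_pos (H : Hyp n T C ε) (R : IsRun n T ε L a z w k) (R' : IsRun n T ε L a z w' k')
    (hkk : k ≤ k') {m : ℕ} (hmk : m < k) (hD : dist (line T w k) (line T w' k') ≤ 4 * rad r₀ m)
    (hD' : rad r₀ m ≤ 32 * dist (line T w k) (line T w' k')) {i : ℕ} (hai : a ≤ i) (him : i ≤ m) :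
    Real.exp (-(2 * ((50 * C * (1 + 2 * 41 ^ d)) ^ 2 * (1 + 2 * 41 ^ d) *
          ∑ l ∈ Ico (i + 1) (m + 1), cellGeo n T l (line T w l) ^ 2))) *
        (3 / 4 * dist (line T w k) (line T w' k')) ≤
      ‖pos n T k (line T w k) i - pos n T k' (line T w' k') i‖ ∧
    ∀ c ∈ near T i (line T w i),
      ‖(plane (n := n) μ r₀ i c).perp (pos n T k (line T w k) i - pos n T k' (line T w' k') i)‖ ≤
        50 * C * (1 + 2 * 41 ^ d) * cellGeo n T i (line T w i) *
          ‖pos n T k (line T w k) i - pos n T k' (line T w' k') i‖ := by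
  set P := line T w k
  set P' := line T w' k'
  set D := dist P P'
  set W : ℝ := 2 * 41 ^ d with hW
  set A : ℝ := 50 * C * (1 + W) with hA
  set B : ℝ := A ^ 2 * (1 + W) with hB
  have hW2 : 2 ≤ W := by
    have := one_le_pow₀ (by norm_num : (1:ℝ) ≤ 41) (n := d); linarith
  have hC := H.one_le
  have hA150 : 150 * C ≤ A := by rw [hA]; nlinarith
  have hgeo : ∀ l, 0 ≤ cellGeo n T l (line T w l) := fun l => geo_nonneg n T _ _
  -- the geometry at every generation up to `m`
  have key : ∀ l, a ≤ l → l ≤ m →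
      dist (line T w' l) (line T w l) ≤ 8 * rad r₀ l ∧
      dist (pos n T k P l) (line T w l) ≤ 7 * rad r₀ l ∧
      dist (pos n T k' P' l) (line T w l) ≤ 7 * rad r₀ l := by
    intro l hal hlm
    have h1 := pos_near H R hal (by omega : l < k)
    have h2 := pos_near H R' hal (by omega : l < k')
    have h3 : dist P (line T w l) < 2 * rad r₀ l := R.dist_lt H.pos_r (by omega)
    have h4 : dist P' (line T w' l) < 2 * rad r₀ l := R'.dist_lt H.pos_r (by omega)
    have h5 : D ≤ 4 * rad r₀ l := hD.trans (by linarith [rad_anti H.pos_r hlm])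
    have h6 := rad_pos H.pos_r l
    refine ⟨?_, ?_, ?_⟩
    · linarith [dist_triangle4 (line T w' l) P' P (line T w l), dist_comm (line T w' l) P',
        dist_comm P' P]
    · linarith [dist_triangle (pos n T k P l) P (line T w l)]
    · linarith [dist_triangle4 (pos n T k' P' l) P' P (line T w l), dist_comm P' P]
  obtain ⟨j, hj⟩ : ∃ j, i + j = m := ⟨m - i, by omega⟩
  induction j generalizing i with
  | zero =>
    obtain rfl : i = m := by omega
    rw [Ico_self, sum_empty, mul_zero, mul_zero, neg_zero, Real.exp_zero, one_mul]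
    obtain ⟨h1, h2, h3⟩ := key i hai le_rfl
    have hy := pos_near H R hai hmk
    have hy' := pos_near H R' hai (by omega : i < k')
    have hge : 3 / 4 * D ≤ ‖pos n T k P i - pos n T k' P' i‖ := by
      rw [← dist_eq_norm]
      linarith [dist_triangle4 P (pos n T k P i) (pos n T k' P' i) P',
        dist_comm P (pos n T k P i)]
    refine ⟨hge, fun c hc => ?_⟩
    have hiK : i ≤ K := by have := R.le; omega
    have hg := R.small i (mem_Ico.2 ⟨hai, hmk⟩)
    have hn := nrm_pos H R hai hmk (line_mem T R.mem hiK) hg (by rw [dist_self]; linarith [rad_pos H.pos_r i]) hc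
    have hn' := nrm_pos H R' hai (by omega : i < k') (line_mem T R.mem hiK) hg h1 hc
    rw [← Plane.nrm_sub_nrm]
    refine (norm_sub_le _ _).trans ((add_le_add hn hn').trans ?_)
    have hr : rad r₀ i ≤ 43 * ‖pos n T k P i - pos n T k' P' i‖ := by linarith
    nlinarith [mul_le_mul_of_nonneg_left hr (by have := hgeo i; positivity :
        (0:ℝ) ≤ C * cellGeo n T i (line T w i)),
      mul_le_mul_of_nonneg_right hA150 (mul_nonneg (hgeo i)
        (norm_nonneg (pos n T k P i - pos n T k' P' i))),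
      mul_nonneg (mul_nonneg (by linarith : (0:ℝ) ≤ C) (hgeo i))
        (norm_nonneg (pos n T k P i - pos n T k' P' i))]
  | succ j ih =>
    obtain ⟨hlow, hperp⟩ := ih (i := i + 1) (by omega) (by omega) (by omega)
    obtain ⟨-, h2, h3⟩ := key (i + 1) (by omega) (by omega)
    obtain ⟨-, h2', h3'⟩ := key i hai (by omega)
    set c₁ := line T w (i + 1)
    set y := pos n T k P (i + 1)
    set y' := pos n T k' P' (i + 1)
    set g₁ := cellGeo n T (i + 1) c₁
    have hi1 : i + 1 < k := by omega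
    have hK1 : i + 1 ≤ K := by have := R.le; omega
    have hc₁ : c₁ ∈ T.net (i + 1) := line_mem T R.mem hK1
    have hg := R.small (i + 1) (mem_Ico.2 ⟨by omega, hi1⟩)
    have hr1 := rad_pos H.pos_r (i + 1)
    have h8 := rad_succ r₀ i
    rw [pos_step T P hi1, pos_step T P' (by omega), avg_eq H.pos_r h2, avg_eq H.pos_r h3]
    have ha := sum_wt (T := T) H.pos_r hc₁ h2
    have ha' := sum_wt (T := T) H.pos_r hc₁ h3
    have hWw : ∑ c ∈ near T (i + 1) c₁, |wt T (i + 1) c₁ y c - wt T (i + 1) c₁ y' c| ≤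
        W / rad r₀ (i + 1) * ‖y - y'‖ := sum_abs_wt_sub H.pos_r hK1 hc₁ h2 h3
    have hnorm := blend_norm (near T (i + 1) c₁) (fun c => plane (n := n) μ r₀ (i + 1) c) _ _ y y'
      (fun c _ => wt_nonneg c) ha ha' (A := A * g₁) (B := C * g₁ * rad r₀ (i + 1))
      (by have := hgeo (i + 1); positivity) (by have := hgeo (i + 1); positivity) hperp
      (fun c hc => nrm_pos H R' (by omega) (by omega) hc₁ hg (key (i + 1) (by omega) (by omega)).1
        hc) hWw
    set Δ' := ∑ c ∈ near T (i + 1) c₁,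
        wt T (i + 1) c₁ y c • (plane (n := n) μ r₀ (i + 1) c).proj y -
      ∑ c ∈ near T (i + 1) c₁,
        wt T (i + 1) c₁ y' c • (plane (n := n) μ r₀ (i + 1) c).proj y'
    have hsm := (H.small' hg (hgeo (i + 1))).2.2
    rw [← hW, ← hA, ← hB] at hsm
    have hstep : (1 - B * g₁ ^ 2) * ‖y - y'‖ ≤ ‖Δ'‖ := by
      refine le_trans (mul_le_mul_of_nonneg_right ?_ (norm_nonneg _)) hnorm
      rw [show A * g₁ * (C * g₁ * rad r₀ (i + 1)) * (W / rad r₀ (i + 1)) = A * C * W * g₁ ^ 2 by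
        field_simp]
      have : A * C * W ≤ A ^ 2 * W := by
        rw [sq]
        exact mul_le_mul_of_nonneg_right (mul_le_mul_of_nonneg_left (by linarith) (by linarith))
          (by linarith)
      rw [hB]
      nlinarith [mul_le_mul_of_nonneg_right this (sq_nonneg g₁)]
    constructor
    · refine le_trans ?_ hstep
      rw [sum_eq_sum_Ico_succ_bot (by omega : i + 1 < m + 1), mul_add, mul_add, neg_add,
        Real.exp_add, mul_assoc]
      exact mul_le_mul (exp_neg_two_mul_le (by positivity) (by linarith)) hlow (by positivity)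
        (by linarith)
    · intro c hc
      have hiK : i ≤ K := by omega
      have hgi := R.small i (mem_Ico.2 ⟨hai, by omega⟩)
      have hc₀ : line T w i ∈ T.net i := line_mem T R.mem hiK
      have hc₁₀ : dist c₁ (line T w i) < 2 * rad r₀ i :=
        dist_line_lt T H.pos_r R.mem (by omega) hK1
      have hcmp : ∀ e ∈ near T (i + 1) c₁, _ := fun e he =>
        H.compare i hiK _ hc₀ (hgi.trans H.le_quarter) i (i + 1) le_rfl (by omega) hiK (by omega)
          le_rfl hK1 c (mem_near.1 hc).1 e (mem_near.1 he).1 (mem_near.1 hc).2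
          (by linarith [dist_triangle e c₁ (line T w i), (mem_near.1 he).2])
      refine (blend_perp (near T (i + 1) c₁) (fun c => plane (n := n) μ r₀ (i + 1) c) _ _ y y'
        (plane (n := n) μ r₀ i c) (fun c _ => wt_nonneg c) ha ha'
        (E := C * cellGeo n T i (line T w i)) (F := C * cellGeo n T i (line T w i) * rad r₀ i)
        (by have := hgeo i; have := rad_pos H.pos_r i; positivity)
        (fun e he => (hcmp e he).1 _) (fun e he => (hcmp e he).2 _ (Plane.nrm_proj _ _) ?_)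
        hWw).trans ?_
      · linarith [H.dist_proj_le (i + 1) e y', dist_triangle y' c₁ e, dist_comm c₁ e,
          (mem_near.1 he).2,
          dist_triangle ((plane (n := n) μ r₀ (i + 1) e).proj y') y' (line T w i),
          dist_triangle y' c₁ (line T w i)]
      · rw [show W / rad r₀ (i + 1) * (C * cellGeo n T i (line T w i) * rad r₀ i) =
          8 * W * (C * cellGeo n T i (line T w i)) by
          rw [show rad r₀ i = 8 * rad r₀ (i + 1) by linarith]; field_simp]
        have hv : ‖y - y'‖ ≤ 2 * ‖Δ'‖ := by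
          nlinarith [mul_le_mul_of_nonneg_right hsm (norm_nonneg (y - y')), norm_nonneg Δ',
            norm_nonneg (y - y')]
        have hg0 := hgeo i
        calc _ ≤ (C * cellGeo n T i (line T w i) + 8 * W * (C * cellGeo n T i (line T w i))) *
              (2 * ‖Δ'‖) := mul_le_mul_of_nonneg_left hv (by positivity)
          _ ≤ _ := by
              rw [hA]
              have : (0:ℝ) ≤ C * cellGeo n T i (line T w i) * ‖Δ'‖ := by positivity
              nlinarith [mul_le_mul_of_nonneg_left hW2 this]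

/-- The coordinates of a vector in a plane. -/
noncomputable def coord (Q : Plane n d) (v : Sp d) : Sp n :=
  WithLp.toLp 2 fun j => ⟪Q.frame j, v⟫

omit [Nonempty (Plane n d)] in
lemma norm_coord (Q : Plane n d) (v : Sp d) : ‖coord Q v‖ = ‖Q.dir v‖ := by
  rw [← sq_eq_sq₀ (norm_nonneg _) (norm_nonneg _), EuclideanSpace.real_norm_sq_eq,
    ← real_inner_self_eq_norm_sq, Plane.dir, Q.ortho.inner_sum]
  simp [coord, sq]

omit [Nonempty (Plane n d)] in
lemma coord_sub (Q : Plane n d) (u v : Sp d) : coord Q u - coord Q v = coord Q (u - v) := by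
  ext j
  simp [coord, inner_sub_right]

end

open Classical in
/-- The ends of the runs from one cell embed co-Lipschitz in the half ball of its scale. -/
theorem exists_run [Nonempty (Plane n d)] (hP : PlaneSpec n d) (μ : Measure (Sp d))
    [IsLocallyFiniteMeasure μ] (C₀ : ℝ) (hμ : Reg n C₀ μ) (L : ℝ) :
    ∃ ε : ℝ, 0 < ε ∧ ∃ c : ℝ, 0 < c ∧ c ≤ 1 ∧ ∀ (x₀ : Sp d), x₀ ∈ μ.support → ∀ r₀ : ℝ, 0 < r₀ →
      ∀ (K : ℕ) (T : Tree μ x₀ r₀ K) (a : ℕ) (z : Sp d), ∃ U : ℕ → Sp d → Sp n,
        (∀ k P, ‖U k P‖ ≤ rad r₀ a / 2) ∧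
        ∀ w w' k k', IsRun n T ε L a z w k → IsRun n T ε L a z w' k' → k ≤ k' →
          line T w k ≠ line T w' k →
          c * dist (line T w k) (line T w' k') ≤ ‖U k (line T w k) - U k' (line T w' k')‖ := by
  obtain ⟨C, hC, hcmp⟩ := exists_compare hP μ C₀ hμ
  obtain ⟨ε₁, hε₁, hε₁4, hclose⟩ := exists_close hP μ C₀ hμ (1 / 2048) (by norm_num)
  set B : ℝ := (50 * C * (1 + 2 * 41 ^ d)) ^ 2 * (1 + 2 * 41 ^ d)
  have hB : 0 < B := by positivity
  refine ⟨min ε₁ (1 / (4096 * B)), lt_min hε₁ (by positivity),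
    min 1 (Real.exp (-(2 * (B * L))) * (3 / 128)), lt_min one_pos (by positivity), min_le_left _ _,
    fun x₀ hx r₀ hr K T a z => ?_⟩
  set ε := min ε₁ (1 / (4096 * B))
  have H : Hyp n T C ε := by
    refine ⟨hr, hC, (min_le_left _ _).trans hε₁4, ?_, fun p R hR => ((hP μ C₀ hμ).1 p R hR).1,
      hcmp x₀ hx r₀ hr K T, fun i hi c₀ hc₀ hg => hclose x₀ hx r₀ hr K T i hi c₀ hc₀
        (hg.trans (min_le_left _ _))⟩
    calc B * ε ≤ B * (1 / (4096 * B)) := mul_le_mul_of_nonneg_left (min_le_right _ _) hB.le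
      _ = 1 / 4096 := by field_simp
  have hra := rad_pos hr a
  set Q := plane (n := n) μ r₀ a z
  set X : ℕ → Sp d → Sp n := fun k P => (1 / 16 : ℝ) • coord Q (pos n T k P a - z)
  refine ⟨fun k P => if ‖X k P‖ ≤ rad r₀ a / 2 then X k P else 0, fun k P => ?_,
    fun w w' k k' R R' hkk hne => ?_⟩
  · dsimp only
    split_ifs with h
    · exact h
    · rw [norm_zero]; positivity
  have hX : ∀ {w k}, IsRun n T ε L a z w k → ‖X k (line T w k)‖ ≤ rad r₀ a / 2 := by
    intro w k R
    simp only [X, norm_smul, norm_coord, Real.norm_eq_abs]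
    rw [abs_of_pos (by norm_num : (0:ℝ) < 1 / 16)]
    refine le_trans (mul_le_mul_of_nonneg_left (Q.norm_dir_le _) (by norm_num)) ?_
    rw [← dist_eq_norm]
    have h1 := pos_near H R le_rfl R.lt
    have h2 := R.dist_lt hr R.lt
    rw [R.start] at h2
    linarith [dist_triangle (pos n T k (line T w k) a) (line T w k) z]
  dsimp only
  rw [if_pos (hX R), if_pos (hX R')]
  set P := line T w k
  set P' := line T w' k'
  set D := dist P P'
  have hsep : rad r₀ k / 4 ≤ D := by
    rw [show D = dist P' P from dist_comm _ _]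
    exact sep_line T hr R.mem R'.mem hkk R'.le hne
  -- the finest generation still seeing both ends as near
  set s := (Ico a k).filter fun i => D ≤ 4 * rad r₀ i
  have hs : s.Nonempty := by
    refine ⟨a, mem_filter.2 ⟨mem_Ico.2 ⟨le_rfl, R.lt⟩, ?_⟩⟩
    have h1 := R.dist_lt hr R.lt
    have h2 := R'.dist_lt hr R'.lt
    rw [R.start] at h1
    rw [R'.start] at h2
    linarith [dist_triangle P z P', dist_comm z P']
  obtain ⟨hm, hDm⟩ := mem_filter.1 (s.max'_mem hs)
  obtain ⟨ham, hmk⟩ := mem_Ico.1 hm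
  set m := s.max' hs with hmdef
  have hD' : rad r₀ m ≤ 32 * D := by
    rcases Nat.eq_or_lt_of_le (Nat.succ_le_of_lt hmk) with h | h
    · have h' : m + 1 = k := h
      have := rad_succ r₀ m
      rw [h'] at this
      linarith
    · have : ¬ D ≤ 4 * rad r₀ (m + 1) := fun hle => by
        have := le_max' s (m + 1) (mem_filter.2 ⟨mem_Ico.2 ⟨by omega, h⟩, hle⟩)
        omega
      linarith [rad_succ r₀ m, dist_nonneg (x := P) (y := P')]
  obtain ⟨hlow, hperp⟩ := pair_pos H R R' hkk hmk hDm hD' le_rfl ham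
  set Δ := pos n T k P a - pos n T k' P' a
  have hzn : z ∈ near T a (line T w a) := by
    rw [R.start]
    refine mem_near.2 ⟨?_, by rw [dist_self]; positivity⟩
    have := line_mem T R.mem (R.lt.le.trans R.le)
    rwa [R.start] at this
  have hp := hperp z hzn
  have hsmall := (H.small' (R.small a (mem_Ico.2 ⟨le_rfl, R.lt⟩)) (geo_nonneg n T _ _)).2.1
  have hdir : ‖Δ‖ / 2 ≤ ‖Q.dir Δ‖ := by
    have h1 : ‖Q.perp Δ‖ ≤ 1 / 4096 * ‖Δ‖ :=
      hp.trans (mul_le_mul_of_nonneg_right hsmall (norm_nonneg _))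
    have h2 : ‖Δ‖ ≤ ‖Q.dir Δ‖ + ‖Q.perp Δ‖ := by
      refine le_trans (le_of_eq ?_) (norm_add_le _ _)
      congr 1; simp [Plane.perp]
    linarith [norm_nonneg Δ]
  have hsum : B * ∑ l ∈ Ico (a + 1) (m + 1), cellGeo n T l (line T w l) ^ 2 ≤ B * L := by
    refine mul_le_mul_of_nonneg_left (le_trans ?_ R.sum_le) hB.le
    exact sum_le_sum_of_subset_of_nonneg (Ico_subset_Ico (by omega) (by omega))
      fun i _ _ => sq_nonneg _
  have hexp : Real.exp (-(2 * (B * L))) * (3 / 4 * D) ≤ ‖Δ‖ :=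
    le_trans (mul_le_mul_of_nonneg_right (Real.exp_le_exp.2 (by linarith)) (by positivity)) hlow
  have hgoal : ‖X k P - X k' P'‖ = 1 / 16 * ‖Q.dir Δ‖ := by
    simp only [X, ← smul_sub, coord_sub, norm_smul, norm_coord, Real.norm_eq_abs,
      sub_sub_sub_cancel_right]
    rw [abs_of_pos (by norm_num : (0:ℝ) < 1 / 16)]
  rw [hgoal]
  refine le_trans (mul_le_mul_of_nonneg_right (min_le_right _ _) dist_nonneg) ?_
  linarith

end Vale.Agent.P120.Param
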